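import Vale.Agent.P366Q.O.Rows
import Vale.Agent.P366Q.G.LinkB
import Vale.Agent.P366M.Calc2

/-!
# P366Q, block O: the weighted mean curvature of a sum of defining functions
-/

open MeasureTheory Metric Filter Topology Set
open scoped ContDiff ENNReal
open Vale.Agent.P366 Vale.Agent.P366.Stmt Vale.Agent.P366Z

noncomputable section

namespace Vale.Agent.P366M.G

/-- the derivatives of two defining functions are parallel -/
theorem parE {n : ℕ} {f h : E n → ℝ} {x : E n} (hf : DifferentiableAt ℝ f x)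
    (hh : DifferentiableAt ℝ h x) (f0 : f x = 0) (h0 : h x = 0) (d : fderiv ℝ f x ≠ 0)
    (k : ∀ᶠ y in 𝓝 x, 0 < f y → 0 ≤ h y) : ∃ l ≥ (0 : ℝ), fderiv ℝ h x = l • fderiv ℝ f x := by
  have a : ∀ ξ, 0 < fderiv ℝ f x ξ → 0 ≤ fderiv ℝ h x ξ := fun ξ hξ => by
    have t : Tendsto (fun s : ℝ => x + s • ξ) (𝓝[>] 0) (𝓝 x) :=
      (Continuous.tendsto' (by fun_prop) 0 x (by simp)).mono_left nhdsWithin_le_nhds
    have b1 := (hf.hasFDerivAt.hasLineDerivAt ξ).tendsto_slope_zero_right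
    have b2 := (hh.hasFDerivAt.hasLineDerivAt ξ).tendsto_slope_zero_right
    refine ge_of_tendsto b2 ?_
    filter_upwards [b1.eventually (lt_mem_nhds hξ), t.eventually k, self_mem_nhdsWithin]
      with s c1 c2 c3
    have c4 : 0 < s⁻¹ := inv_pos.2 c3
    rw [f0, sub_zero, smul_eq_mul] at c1
    rw [h0, sub_zero, smul_eq_mul]
    exact mul_nonneg c4.le (c2 ((mul_pos_iff_of_pos_left c4).1 c1))
  obtain ⟨η, hη⟩ : ∃ η, fderiv ℝ f x η = 1 := by
    obtain ⟨η, hη⟩ : ∃ η, fderiv ℝ f x η ≠ 0 := by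
      by_contra! c
      exact d (ContinuousLinearMap.ext c)
    exact ⟨(fderiv ℝ f x η)⁻¹ • η, by rw [map_smul, smul_eq_mul, inv_mul_cancel₀ hη]⟩
  have b : ∀ ξ, fderiv ℝ f x ξ = 0 → fderiv ℝ h x ξ = 0 := fun ξ hξ => by
    by_contra c
    have := a (η - ((fderiv ℝ h x η + 1) / fderiv ℝ h x ξ) • ξ) (by simp [hξ, hη])
    rw [map_sub, map_smul, smul_eq_mul, div_mul_cancel₀ _ c] at this
    linarith
  refine ⟨fderiv ℝ h x η, a η (by simp [hη]), ContinuousLinearMap.ext fun ξ => ?_⟩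
  have := b (ξ - fderiv ℝ f x ξ • η) (by simp [hη])
  rw [map_sub, map_smul, smul_eq_mul, sub_eq_zero] at this
  rw [this, smul_apply, smul_eq_mul, mul_comm]

variable {n : ℕ} {M : Type} [Mfe n M] {g : Fld n M} {U f h ψ χ : M → ℝ} {x : M} {κ l : ℝ}

theorem gn_ne (hg : Met g) : gn g f x ≠ 0 ↔ ∃ i, pd i f x ≠ 0 := by
  refine ⟨fun k => not_forall.1 fun c => k (gn_zero c), fun ⟨i, hi⟩ => ?_⟩
  exact (Real.sqrt_pos.2 (hg.up_pos x (ξ := fun i => pd i f x) fun e => hi (congrFun e i))).ne'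

theorem par (hf : DAt f x) (hh : DAt h x) (f0 : f x = 0) (h0 : h x = 0) (d : gn g f x ≠ 0)
    (d' : gn g h x ≠ 0) (k : ∀ᶠ y in 𝓝 x, 0 < f y → 0 ≤ h y) :
    ∃ l > (0 : ℝ), ∀ i, pd i h x = l * pd i f x := by
  obtain ⟨l, l0, e⟩ := parE hf hh (by rwa [loc_pt]) (by rwa [loc_pt])
    (fun c => d (gn_zero fun i => by rw [pd_eq hf, fd, c]; rfl)) (ev_pt.1 k)
  have e' : ∀ i, pd i h x = l * pd i f x := fun i => by
    rw [pd_eq hf, pd_eq hh, fd, e]; rfl
  exact ⟨l, l0.lt_of_ne fun c => d' (gn_zero fun i => by rw [e', ← c, zero_mul]), e'⟩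

/-- the linear form of the weighted mean curvature; `f` fixes the normal -/
def tq (g : Fld n M) (U f ψ : M → ℝ) (x : M) : ℝ :=
  U x ^ (2 * gam n) * ∑ i, ∑ j, (ip g f f x * up g i j x - gr g f i x * gr g f j x) *
    hess g ψ x i j + ip g f f x * ip g (fun y => U y ^ (2 * gam n)) ψ x

theorem mcw_eq (hg : Met g) (hU : Smooth U) (U0 : ∀ x, 0 < U x) (hf : Smooth f)
    (d : gn g f x ≠ 0) : mcw g U f x * gn g f x ^ 3 = tq g U f f x := by
  have sρ := hU.rpow U0 (2 * gam n)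
  have i0 : ip g f f x ≠ 0 := fun h0 => d (by rw [gn, h0, Real.sqrt_zero])
  have di := (hg.sm_ip hf hf).diff x
  have dg : DAt (gn g f) x := di.sqrt i0
  have e1 : ∀ i, pd i (gn g f) x = (∑ j, hess g f x i j * gr g f j x) / gn g f x := fun i => by
    have := pd_comp (Real.hasDerivAt_sqrt i0) di i
    rw [hg.pd_ip (hf.c2 x) (hf.c2 x)] at this
    refine this.trans ?_
    change _ = _ / √(ip g f f x)
    have : √(ip g f f x) ≠ 0 := d
    field_simp
    ring
  unfold mcw tq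
  rw [show (fun i y => U y ^ (2 * gam n) * gr g f i y / gn g f y) =
    fun i y => U y ^ (2 * gam n) / gn g f y * gr g f i y by funext i y; ring,
    hg.dv_smul ((sρ.diff x).div dg d) (hg.diff_gr (hf.c2 x)), ← lap_eq_dv g (hf.c2 x),
    hg.lap_eq_tr (hf.c2 x), ← hg.gn_sq, ip_eq_gr g _ f]
  simp only [pd_div (sρ.diff x) dg d, e1, tr, sub_mul, Finset.sum_sub_distrib, mul_assoc,
    ← Finset.mul_sum, sub_div, add_mul]
  have e2 : ∑ i, U x ^ (2 * gam n) * ((∑ j, hess g f x i j * gr g f j x) / gn g f x) /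
      gn g f x ^ 2 * gr g f i x = U x ^ (2 * gam n) / gn g f x ^ 3 *
        ∑ i, gr g f i x * ∑ j, gr g f j x * hess g f x i j := by
    rw [Finset.mul_sum]
    refine Finset.sum_congr rfl fun i _ => ?_
    simp only [mul_comm (gr g f _ x) (hess g f x i _)]
    field_simp
  have e3 : ∑ i, pd i (fun y => U y ^ (2 * gam n)) x * gn g f x / gn g f x ^ 2 * gr g f i x =
      (∑ i, pd i (fun y => U y ^ (2 * gam n)) x * gr g f i x) / gn g f x := by
    rw [Finset.sum_div]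
    refine Finset.sum_congr rfl fun i _ => ?_
    field_simp
  rw [e2, e3]
  field_simp
  ring

theorem mcw_congr (e : f =ᶠ[𝓝 x] h) : mcw g U f x = mcw g U h x :=
  dv_congr fun i => by
    filter_upwards [e.eventuallyEq_nhds, gr_congr_ev (g := g) e i] with y hy k
    rw [k, gn_congr hy]

theorem tq_ref (e : ∀ i, pd i h x = l * pd i f x) : tq g U h ψ x = l ^ 2 * tq g U f ψ x := by
  have e1 : ∀ i, gr g h i x = l * gr g f i x := fun i => by
    simp only [gr, e, Finset.mul_sum, mul_left_comm]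
  have e2 : ∀ i j, (l * l * ip g f f x * up g i j x - l * gr g f i x * (l * gr g f j x)) *
      hess g ψ x i j = l ^ 2 * ((ip g f f x * up g i j x - gr g f i x * gr g f j x) *
        hess g ψ x i j) := fun i j => by ring
  unfold tq
  simp only [ip_of_pd e e, e1, e2, ← Finset.mul_sum]
  ring

/-- the derivative of `ψ` is `l` times the derivative of `f`, with the mean curvature `κ` -/
structure Pt (g : Fld n M) (U : M → ℝ) (κ : ℝ) (f ψ : M → ℝ) (l : ℝ) (x : M) : Prop where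
  d1 : ∀ i, pd i ψ x = l * pd i f x
  d2 : tq g U f ψ x = κ * l * gn g f x ^ 3

theorem Pt.congr (H : Pt g U κ f ψ l x) (e : h =ᶠ[𝓝 x] ψ) : Pt g U κ f h l x :=
  ⟨fun i => (pd_congr e i).trans (H.d1 i), by
    rw [← H.d2]; unfold tq; rw [hess_congr e, ip_congr EventuallyEq.rfl e]⟩

theorem pt_zero : Pt g U κ f (fun _ => 0) 0 x :=
  ⟨fun i => by simp [pd_const], by simp [tq, hess_const, ip_const_right]⟩

theorem Pt.add {l' : ℝ} (H : Pt g U κ f ψ l x) (H' : Pt g U κ f h l' x) (hψ : CAt 2 ψ x)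
    (hh : CAt 2 h x) : Pt g U κ f (fun y => ψ y + h y) (l + l') x := by
  refine ⟨fun i => by rw [pd_add (diff2 hψ) (diff2 hh), H.d1, H'.d1, add_mul], ?_⟩
  have h1 := H.d2
  have h2 := H'.d2
  unfold tq at h1 h2 ⊢
  simp only [hess_add hψ hh, ip_add_right (diff2 hψ) (diff2 hh), mul_add, Finset.sum_add_distrib]
  linear_combination h1 + h2

theorem pt_sum {ι : Type} (s : Finset ι) {F : ι → M → ℝ} {L : ι → ℝ}
    (hF : ∀ p, CAt 2 (F p) x) (H : ∀ p ∈ s, Pt g U κ f (F p) (L p) x) :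
    Pt g U κ f (fun y => ∑ p ∈ s, F p y) (∑ p ∈ s, L p) x := by
  classical
  induction s using Finset.induction_on with
  | empty => simpa using pt_zero
  | insert a s ha ih =>
    simp only [Finset.sum_insert ha]
    exact (H a (Finset.mem_insert_self _ _)).add (ih fun p hp => H p (Finset.mem_insert_of_mem hp))
      (hF a) (CAt.sum fun p _ => hF p)

theorem Pt.mul (H : Pt g U κ f ψ l x) (hg : Met g) (hψ : CAt 2 ψ x) (hχ : CAt 2 χ x)
    (z : ψ x = 0) : Pt g U κ f (fun y => χ y * ψ y) (χ x * l) x := by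
  refine ⟨fun i => by rw [pd_mul (diff2 hχ) (diff2 hψ), H.d1, z]; ring, ?_⟩
  have h1 := H.d2
  have a : ∀ i, ∑ j, (ip g f f x * up g i j x - gr g f i x * gr g f j x) * pd j f x = 0 :=
    fun i => by
      simp only [sub_mul, Finset.sum_sub_distrib, mul_assoc, ← Finset.mul_sum,
        mul_comm (gr g f _ x) (pd _ f x), ← ip_eq_gr]
      exact sub_eq_zero.2 (mul_comm _ _)
  have b : ∑ i, ∑ j, (ip g f f x * up g i j x - gr g f i x * gr g f j x) *
      (pd i χ x * (l * pd j f x)) = 0 := Finset.sum_eq_zero fun i _ => by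
    rw [← mul_zero (pd i χ x * l), ← a i, Finset.mul_sum]
    exact Finset.sum_congr rfl fun j _ => by ring
  have c : ∑ i, ∑ j, (ip g f f x * up g i j x - gr g f i x * gr g f j x) *
      (l * pd i f x * pd j χ x) = 0 := by
    rw [Finset.sum_comm, ← b]
    exact Finset.sum_congr rfl fun i _ => Finset.sum_congr rfl fun j _ => by
      rw [hg.up_sy]; ring
  unfold tq at h1 ⊢
  simp only [hess_mul hχ hψ, ip_mul_right (diff2 hχ) (diff2 hψ), z, zero_mul, add_zero, zero_add,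
    mul_add, Finset.sum_add_distrib, H.d1, b, c, mul_left_comm _ (χ x), ← Finset.mul_sum]
  linear_combination χ x * h1

theorem pt_of (hg : Met g) (hU : Smooth U) (U0 : ∀ x, 0 < U x) (hψ : Smooth ψ) (l0 : 0 < l)
    (e : ∀ i, pd i ψ x = l * pd i f x) (d : gn g ψ x ≠ 0) (k : mcw g U ψ x = κ) :
    Pt g U κ f ψ l x := by
  have := mcw_eq hg hU U0 hψ d
  rw [tq_ref e, gn_of_pd e, abs_of_pos l0, k] at this
  exact ⟨e, mul_left_cancel₀ (pow_pos l0 2).ne' (by rw [← this]; ring)⟩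

theorem Pt.mcw (H : Pt g U κ f ψ l x) (hg : Met g) (hU : Smooth U) (U0 : ∀ x, 0 < U x)
    (hψ : Smooth ψ) (l0 : 0 < l) (d : gn g f x ≠ 0) : gn g ψ x ≠ 0 ∧ mcw g U ψ x = κ := by
  have d' : gn g ψ x ≠ 0 := by rw [gn_of_pd H.d1]; exact mul_ne_zero (abs_pos.2 l0.ne').ne' d
  have := mcw_eq hg hU U0 hψ d'
  rw [tq_ref H.d1, H.d2] at this
  refine ⟨d', mul_right_cancel₀ (pow_ne_zero 3 d') (this.trans ?_)⟩
  rw [gn_of_pd H.d1, abs_of_pos l0]
  ring

end Vale.Agent.P366M.G
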