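import Vale.Agent.P366Q.O.Defs

/-!
# P366Q, block O: the rows of the step `ONE`
-/

open MeasureTheory Metric Filter Topology Set
open scoped ContDiff ENNReal
open Vale.Agent.P366 Vale.Agent.P366.Stmt Vale.Agent.P366Z

noncomputable section

namespace Vale.Agent.P366M.G

variable {n : ℕ} {M : Type} [Mfe n M]

/-- the weighted mean curvature of the level sets of `φ` -/
def mcw (g : Fld n M) (U φ : M → ℝ) (x : M) : ℝ :=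
  dv g (fun i y => U y ^ (2 * gam n) * gr g φ i y / gn g φ y) x

/-- near `x` the sets `Am`, `Ap` are the sides of a hypersurface of weighted mean curvature `κ` -/
def Rg (g : Fld n M) (U : M → ℝ) (κ : ℝ) (Am Ap : Set M) (x : M) : Prop :=
  ∃ φ : M → ℝ, Smooth φ ∧ gn g φ x ≠ 0 ∧ ∀ᶠ y in 𝓝 x, (y ∈ Ap ↔ 0 < φ y) ∧ (y ∈ Am ↔ φ y < 0) ∧
    (φ y = 0 → mcw g U φ y = κ)

/-- two open sets whose common boundary is regular outside the small set `S` -/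
structure Sd (g : Fld n M) (U : M → ℝ) (κ : ℝ) (Am Ap S : Set M) : Prop where
  om : IsOpen Am
  op : IsOpen Ap
  dj : Disjoint Am Ap
  cS : IsClosed S
  sub : ∀ x ∈ S, x ∉ Am ∧ x ∉ Ap
  nul : ∀ e ∈ At M, P366D.Null ((n : ℝ) - 4) (e.symm ⁻¹' S)
  reg : ∀ x, x ∉ Am → x ∉ Ap → x ∉ S → Rg g U κ Am Ap x

/-- the limit of the near minimisers -/
structure Mz (B : Bg n M) (L : ℝ) (m U : M → ℝ) (κ s₁ r₁ A c : ℝ) (Am Ap S : Set M) : Prop where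
  sd : Sd B.g U κ Am Ap S
  col : ∀ x, B.F x ≤ s₁ → x ∈ Am
  far : ∀ x, r₁ ≤ ‖px x‖ → x ∈ Ap
  seq : ∀ η > (0 : ℝ), ∀ K, IsClosed K → K ⊆ Ap → ∀ x₀, x₀ ∉ Am → x₀ ∉ Ap → ∃ ψ,
    Near B L m U κ η ψ ∧ volume {x | 0 < ψ x ∧ ψ x < 1} ≤ ENNReal.ofReal η ∧ (∀ x ∈ K, ψ x = 1) ∧
      (3 * B.ρ ≤ 2 * ‖px x₀‖ → (∀ y, 2 * ‖px x₀‖ ≤ 3 * ‖px y‖ → U y ≤ A) →
        Fat {y | fe ψ y = 0} c (px x₀) η (‖px x₀‖ / 4))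

/-- **MB**: the minimising boundary -/
def MB : Prop := ∀ (n : ℕ) (M : Type) [Mfe n M] (C' : ℝ), ∃ c' > (0 : ℝ), c' ≤ 1 / 8 ∧ ∀ C₀ : ℝ,
  ∃ c > (0 : ℝ), ∀ (B : Bg n M) (L : ℝ) m p q, B.Ok → Pen B L m p q → ∀ U a β R s',
    St B U a β R s' → ∀ κ ∈ Ico (-(B.h / 4)) 0, ∀ r, Cf B L U a κ C' c' r →
      ∀ ρ' ∈ Ioo 0 (B.s / 8), ∃ Am Ap S, Mz B L m U κ (s' - ρ') (7 / 8 * r) (C₀ * a) c Am Ap S

/-- a family of bumps at the scales `s j` -/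
structure Cov (g : Fld n M) (C δ R : ℝ) {N : ℕ} (s : Fin N → ℝ) (c : Fin N → M → ℝ) : Prop where
  s0 : ∀ j, 0 < s j ∧ s j ≤ δ
  sum : ∑ j, s j ^ ((n : ℝ) - 4) ≤ δ
  sm : ∀ j, Smooth (c j)
  gr : ∀ j x, gn g (c j) x ≤ C / s j
  vol : ∀ j, ∫⁻ x in {x | 0 < c j x}, ENNReal.ofReal (dens g x) ≤ ENNReal.ofReal (C * s j ^ n)
  out : ∀ j x, R ≤ ‖px x‖ → c j x ≤ 0

/-- **COVER**: the singular set is covered by bumps -/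
def COVER : Prop := ∀ (n : ℕ) (M : Type) [Mfe n M] (g : Fld n M) (S : Set M) (R : ℝ), Met g →
  IsClosed S → (∀ x ∈ S, ‖px x‖ < R) → (∀ e ∈ At M, P366D.Null ((n : ℝ) - 4) (e.symm ⁻¹' S)) →
  ∃ C : ℝ, ∀ δ > (0 : ℝ), ∃ (N : ℕ) (s : Fin N → ℝ) (c : Fin N → M → ℝ), Cov g C δ R s c ∧
    ∀ x ∈ S, ∃ j, 1 < c j x

/-- **PHI**: a global defining function -/
def PHI : Prop := ∀ (n : ℕ) (M : Type) [Mfe n M] (g : Fld n M) (U : M → ℝ) (κ R : ℝ)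
  (Am Ap S O : Set M), 3 ≤ n → Met g → Smooth U → (∀ x, 0 < U x) → Sd g U κ Am Ap S → IsOpen O →
  S ⊆ O → R0 M ≤ R → (∀ x, R ≤ ‖px x‖ → x ∈ Ap) → ∃ φ, IsExt φ ∧ (∀ x, 0 < φ x → x ∈ Ap) ∧
    (∀ x ∈ Am, φ x < 0) ∧ (∃ t > (0 : ℝ), ∀ x, R ≤ ‖px x‖ → t ≤ φ x) ∧
    ∀ x, φ x = 0 → x ∈ O ∨ mcw g U φ x = κ

/-- **BDC**: the bent double, the odd potential, the cap and the shield -/
def BDC : Prop := ∀ (n : ℕ) (M : Type) [Mfe n M] (B : Bg n M) U a β R s' (a₀ δ₀ R' R₁ C : ℝ),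
  B.Ok → St B U a β R s' → 0 < a₀ → a₀ ≤ a → δ₀ ∈ Ioo (0 : ℝ) 1 → Sm B a₀ δ₀ → B.ρ ≤ R' →
  R' < R₁ → ∃ δ > (0 : ℝ), ∀ (N : ℕ) (s : Fin N → ℝ) (c : Fin N → M → ℝ) (φ : M → ℝ),
    Cov B.g C δ R' s c → IsExt φ → (∃ x, φ x = 0) → (∀ x, 0 ≤ φ x → 0 ≤ B.F x) →
    (∃ t > (0 : ℝ), ∀ x, R' ≤ ‖px x‖ → t ≤ φ x) →
    (∀ x, φ x = 0 → (∃ j, 1 < c j x) ∨ mcw B.g U φ x < 0) → ∀ η' > (0 : ℝ),
      ∃ (h : M → ℝ) (βh t : ℝ), Smooth h ∧ (∀ x, 0 < h x ∧ h x ≤ 1) ∧ (∀ x, 0 ≤ wl B.g U h x) ∧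
        (∀ x, R₁ ≤ ‖px x‖ → wl B.g U h x = 0) ∧ Asy (fun x => h x * U x) a βh ∧ 0 < t ∧
        (∀ x, φ x ≤ t → h x ≤ η') ∧ Rig (fun x => U x * (1 + (1 - δ₀) * h x) / 2) R₁

/-- **MASSR**: the mass is nonnegative -/
def MASSR : Prop := ∀ (n : ℕ) (M : Type) [Mfe n M] (v : M → ℝ) (R a β : ℝ), 3 ≤ n →
  R0 M + 1 ≤ R → 0 < a → Rig v R → Asy v a β → 0 ≤ β

/-- **ENER**: the energy of a subharmonic function -/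
def ENER : Prop := ∀ (n : ℕ) (M : Type) [Mfe n M] (B : Bg n M) U a β R s' (h : M → ℝ) (βh : ℝ),
  B.Ok → St B U a β R s' → Smooth h → (∀ x, 0 < h x ∧ h x ≤ 1) → (∀ x, 0 ≤ wl B.g U h x) →
  Asy (fun x => h x * U x) a βh → βh ≤ β ∧
    ∫⁻ x, ENNReal.ofReal (U x ^ 2 * ip B.g h h x * dens B.g x) ≤
      ENNReal.ofReal ((n - 2) * omega n * a * (β - βh))

end Vale.Agent.P366M.G
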