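import Vale.Agent.P366Q.O.Rows
import Vale.Agent.P366P.MJac

/-!
# P366Q, block O: the rows of the minimising boundary
-/

open MeasureTheory Metric Filter Topology Set
open scoped ContDiff ENNReal
open Vale.Agent.P366 hiding E omega
open Vale.Agent.P366.Stmt Vale.Agent.P366Z

noncomputable section

namespace Vale.Agent.P366M.G

/-- the points near which the functions `u i` are larger than one -/
def Sp {X : Type} [TopologicalSpace X] (l : Filter ℕ) (u : ℕ → X → ℝ) : Set X :=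
  {x | ∀ᶠ p in l ×ˢ 𝓝 x, 1 < u p.1 p.2}

/-- **CAPE**: the capillary equation has solutions on bounded sets -/
def CAPE : Prop := ∀ (n : ℕ) (M : Type) [Mfe n M] (g : Fld n M) (ρ k : M → ℝ) (R₀ R : ℝ), 3 ≤ n →
  Met g → Flat g R₀ → Smooth ρ → (∀ x, 0 < ρ x) → Smooth k → ∃ C : ℝ, ∀ τ ∈ Ioc (0 : ℝ) 1,
    ∃ f : M → ℝ, Smooth f ∧ ∀ x, ‖px x‖ < R → |τ * f x| ≤ C ∧
      dv g (nf g ρ f) x = τ * ρ x * f x + k x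

/-- **CRG**: the limit of capillary graphs in a chart -/
def CRG : Prop := ∀ (k : ℕ) (G : Stmt.Field (k + 1)) (φ H : E (k + 1) → ℝ) (O : Set (E (k + 1)))
  (𝒰 : Ultrafilter ℕ) (u : ℕ → E (k + 1) → ℝ) (c ε : ℕ → ℝ) (Λ : ℝ), 2 ≤ k → P366Z.Met G →
  Stmt.Smooth φ → Stmt.Smooth H → IsOpen O → (∀ i, Stmt.Smooth (u i)) → Tendsto c 𝒰 (𝓝 0) →
  Tendsto ε 𝒰 (𝓝 0) → (∀ i, 0 ≤ ε i) →
  (∀ i, ∀ x ∈ O, P366P.hw G φ (u i) x = H x + c i + ε i * u i x ∧ |ε i * u i x| ≤ Λ) →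
  (∀ S : ℝ, Tendsto (fun i => volume {x | x ∈ O ∧ |u i x| ≤ S}) 𝒰 (𝓝 0)) →
  ∀ K, IsCompact K → K ⊆ O → P366D.Null ((k : ℝ) - 3) {x | x ∈ K ∧ ¬(x ∈ Sp 𝒰 u ∨
    x ∈ Sp 𝒰 (fun i y => -u i y) ∨ ∃ w : E (k + 1) → ℝ, Stmt.Smooth w ∧ fderiv ℝ w x ≠ 0 ∧
      ∀ᶠ y in 𝓝 x, (0 < w y → y ∈ Sp 𝒰 u) ∧ (w y < 0 → y ∈ Sp 𝒰 fun i y => -u i y))}

/-- **VIS**: the mean curvature of the limit, by comparison -/
def VIS : Prop := ∀ (n : ℕ) (M : Type) [Mf0 n M] (g : Fld n M) (ρ H w : M → ℝ) (l : Filter ℕ)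
  (u : ℕ → M → ℝ) (e : ℕ → ℝ) (x : M), l.NeBot → Met g → Smooth ρ → (∀ y, 0 < ρ y) →
  ContinuousAt H x → Smooth w → gn g w x ≠ 0 → w x = 0 → Tendsto e l (𝓝 0) → (∀ i, Smooth (u i)) →
  (∀ᶠ y in 𝓝 x, (0 < w y → y ∈ Sp l u) ∧ (w y < 0 → y ∈ Sp l fun i y => -u i y)) →
  (∀ᶠ p in l ×ˢ 𝓝 x, u p.1 p.2 ≤ 1 → dv g (nf g ρ (u p.1)) p.2 ≤ H p.2 + e p.1) →
  dv g (fun i y => ρ y * gr g w i y / gn g w y) x ≤ H x

end Vale.Agent.P366M.G
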