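import Vale.Agent.P366Q.O.Rows
import Vale.Agent.P366M.Apx
import Vale.Agent.P366M.End1

/-!
# P366Q, block O: the row COVER
-/

open MeasureTheory Metric Filter Topology Set
open scoped ContDiff ENNReal
open Vale.Agent.P366 Vale.Agent.P366.Stmt Vale.Agent.P366Z

noncomputable section

namespace Vale.Agent.P366M.G

variable {n : ℕ} {M : Type} [Mfe n M] {g : Fld n M}

/-- one bump at the scale `s` -/
structure Bmp (g : Fld n M) (C R s : ℝ) (c : M → ℝ) : Prop where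
  sm : Smooth c
  gr : ∀ x, gn g c x ≤ C / s
  vol : ∫⁻ x in {x | 0 < c x}, ENNReal.ofReal (dens g x) ≤ ENNReal.ofReal (C * s ^ n)
  out : ∀ x, R ≤ ‖px x‖ → c x ≤ 0

theorem Bmp.mono {C C' R s : ℝ} {c : M → ℝ} (H : Bmp g C R s c) (h : C ≤ C') (hs : 0 < s) :
    Bmp g C' R s c :=
  ⟨H.sm, fun x => (H.gr x).trans (by gcongr), H.vol.trans (by gcongr), H.out⟩

theorem gn_cpt {G : Field n} (hG : P366Z.Met G) {K : Set (E n)} (hK : IsCompact K) :
    ∃ C ≥ (0 : ℝ), ∀ y ∈ K, ∀ v : E n → ℝ, DifferentiableAt ℝ v y →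
      P366Z.gn G v y ≤ C * ‖fderiv ℝ v y‖ := by
  obtain ⟨C, hC⟩ := hK.exists_bound_of_continuousOn
    (continuous_finsetSum Finset.univ fun i _ => continuous_finsetSum Finset.univ fun j _ =>
      (hG.sm_up i j).cont.abs).continuousOn
  refine ⟨√C, Real.sqrt_nonneg _, fun y hy v hv => ?_⟩
  rw [← Real.sqrt_sq (norm_nonneg (fderiv ℝ v y)), ← Real.sqrt_mul' _ (sq_nonneg _)]
  refine Real.sqrt_le_sqrt (le_trans ?_ (mul_le_mul_of_nonneg_right
    ((le_abs_self _).trans (hC y hy)) (sq_nonneg _)))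
  simp only [Finset.sum_mul]
  refine Finset.sum_le_sum fun i _ => Finset.sum_le_sum fun j _ => (le_abs_self _).trans ?_
  rw [mul_assoc, abs_mul, abs_mul, sq]
  exact mul_le_mul_of_nonneg_left (mul_le_mul (P366Z.abs_pd_le hv i) (P366Z.abs_pd_le hv j)
    (abs_nonneg _) (norm_nonneg _)) (abs_nonneg _)

/-- bumps in a chart -/
theorem exists_bmp (hg : Met g) {e : Ch n M} (he : e ∈ At M) {K : Set (E n)} (hK : IsCompact K)
    {R : ℝ} (hR : ∀ y ∈ K, ‖px (e.symm y)‖ < R) : ∃ C : ℝ, ∀ (y : E n) (s : ℝ), 0 < s →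
      closedBall y (2 * s) ⊆ K → ∃ c, Bmp g C R s c ∧ ∀ z ∈ ball y s, 1 < c (e.symm z) := by
  have hG := hg.rep he
  obtain ⟨C₁, p1, h1⟩ := gn_cpt hG hK
  obtain ⟨C₂, p2, h2⟩ := P366Z.fderiv_cut n
  obtain ⟨C₃, h3⟩ := hK.exists_bound_of_continuousOn hG.sm_dens.cont.continuousOn
  set V := (volume (ball (0 : E n) 1)).toReal
  have pV : 0 ≤ V := ENNReal.toReal_nonneg
  refine ⟨max (C₁ * (2 * C₂)) (|C₃| * 2 ^ n * V), fun y s hs hy => ?_⟩
  set v : E n → ℝ := fun z => 2 * P366Z.cut s (z - y) with hv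
  have sv : ContDiff ℝ ∞ v :=
    contDiff_const.mul ((P366Z.sm_cut s).comp (contDiff_id.sub contDiff_const))
  have zv : ∀ z ∉ closedBall y (2 * s), v z = 0 := fun z hz => by
    rw [mem_closedBall_iff_norm, not_le] at hz
    simp only [hv, P366Z.cut_zero hs hz.le, mul_zero]
  have cB := isCompact_closedBall y (2 * s)
  have sc : Smooth (zx e v) := cd_zx le_rfl he cB zv sv
  refine ⟨zx e v, ⟨sc, fun x => ?_, ?_, fun x hx => ?_⟩, fun z hz => ?_⟩
  · by_cases hx : x ∈ e.symm '' closedBall y (2 * s)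
    · obtain ⟨z, hz, rfl⟩ := hx
      rw [← gn_rep he g (sc.diff _), loc_zx he]
      refine (h1 z (hy hz) v (sv.differentiable (by simp) z)).trans ?_
      have d : HasFDerivAt v ((2 : ℝ) • fderiv ℝ (P366Z.cut s) (z - y)) z := by
        have := (((P366Z.sm_cut (n := n) s).diff (z - y)).hasFDerivAt.comp z
          ((hasFDerivAt_id z).sub_const y)).const_mul 2
        simpa using this
      rw [d.fderiv, norm_smul, Real.norm_two]
      calc C₁ * (2 * ‖fderiv ℝ (P366Z.cut s) (z - y)‖) ≤ C₁ * (2 * (C₂ / s)) := by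
            gcongr; exact h2 s hs _
        _ = C₁ * (2 * C₂) / s := by ring
        _ ≤ _ := by gcongr; exact le_max_left _ _
    · rw [gn_zero (pd_zero_of_notMem fun k => hx (tsupport_zx he cB zv k))]
      exact div_nonneg (le_max_of_le_left (by positivity)) hs.le
  · refine le_trans (lintegral_mono_set (t := e.symm '' closedBall y (2 * s))
      fun x hx => by_contra fun k => (zx_zero zv k).not_gt hx) ?_
    have := lintegral_dens_image he g cB.measurableSet fun _ => 1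
    simp only [one_mul] at this
    rw [this]
    refine le_trans (setLIntegral_mono' cB.measurableSet (g := fun _ => ENNReal.ofReal |C₃|)
      fun z hz => ENNReal.ofReal_le_ofReal ((le_abs_self _).trans
        ((h3 z (hy hz)).trans (le_abs_self _)))) ?_
    rw [setLIntegral_const, Measure.addHaar_closedBall _ _ (by positivity), finrank_euclideanSpace,
      Fintype.card_fin, ← ENNReal.ofReal_toReal (measure_ball_lt_top (x := (0 : E n)) (r := 1)).ne,
      ← ENNReal.ofReal_mul (by positivity), ← ENNReal.ofReal_mul (abs_nonneg _)]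
    refine ENNReal.ofReal_le_ofReal (le_trans (le_of_eq ?_)
      (mul_le_mul_of_nonneg_right (le_max_right _ _) (by positivity)))
    rw [mul_pow]
    ring
  · exact (zx_zero zv fun ⟨z, hz, k⟩ => (hR z (hy hz)).not_ge (k ▸ hx)).le
  · rw [zx_symm he]
    simp only [hv, P366Z.cut_one (mem_ball_iff_norm.1 hz).le]
    norm_num

/-- the set `A` is covered by bumps -/
def Cvd (g : Fld n M) (R : ℝ) (A : Set M) : Prop := ∃ C : ℝ, ∀ δ > (0 : ℝ),
  ∃ (ι : Type) (_ : Fintype ι) (s : ι → ℝ) (c : ι → M → ℝ),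
    (∀ j, (0 < s j ∧ s j ≤ δ) ∧ Bmp g C R (s j) (c j)) ∧ ∑ j, s j ^ ((n : ℝ) - 4) ≤ δ ∧
      ∀ x ∈ A, ∃ j, 1 < c j x

theorem Cvd.union {R : ℝ} {A A' : Set M} (H : Cvd g R A) (H' : Cvd g R A') :
    Cvd g R (A ∪ A') := by
  obtain ⟨C, H⟩ := H
  obtain ⟨C', H'⟩ := H'
  refine ⟨max C C', fun δ hδ => ?_⟩
  obtain ⟨ι, _, s, c, a1, a2, a3⟩ := H (δ / 2) (by positivity)
  obtain ⟨ι', _, s', c', b1, b2, b3⟩ := H' (δ / 2) (by positivity)
  refine ⟨ι ⊕ ι', inferInstance, Sum.elim s s', Sum.elim c c', ?_, ?_, ?_⟩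
  · rintro (j | j)
    · exact ⟨⟨(a1 j).1.1, (a1 j).1.2.trans (by linarith)⟩,
        (a1 j).2.mono (le_max_left _ _) (a1 j).1.1⟩
    · exact ⟨⟨(b1 j).1.1, (b1 j).1.2.trans (by linarith)⟩,
        (b1 j).2.mono (le_max_right _ _) (b1 j).1.1⟩
  · rw [Fintype.sum_sum_type]
    simp only [Sum.elim_inl, Sum.elim_inr]
    linarith
  · rintro x (hx | hx)
    · obtain ⟨j, hj⟩ := a3 x hx
      exact ⟨.inl j, hj⟩
    · obtain ⟨j, hj⟩ := b3 x hx
      exact ⟨.inr j, hj⟩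

theorem cvd_loc (hg : Met g) {S : Set M} {R : ℝ} {p : M} (hp : ‖px p‖ < R)
    (h : P366D.Null ((n : ℝ) - 4) ((ch p).symm ⁻¹' S)) : ∃ t ∈ 𝓝[S] p, Cvd g R t := by
  classical
  have he := ch_mem p
  obtain ⟨r, hr, h1⟩ := nhds_basis_closedBall.eventually_iff.1
    (ev_pt.1 ((isOpen_lt cont_npx continuous_const).mem_nhds hp))
  obtain ⟨C, hC⟩ := exists_bmp hg he (isCompact_closedBall (pt p) r) fun y hy => h1 hy
  refine ⟨_, inter_mem_nhdsWithin S (image_nhds p (closedBall_mem_nhds (pt p) (ε := r / 4)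
    (by positivity))), C, fun δ hδ => ?_⟩
  obtain ⟨t, a1, a2, a3⟩ := h _ (isCompact_closedBall (pt p) (r / 4)) (min δ (r / 4))
    (by positivity)
  set t' := t.filter fun q => dist q.1 (pt p) ≤ r / 2
  have k : ∀ q : t', ∃ c, Bmp g C R q.1.2 c ∧ ∀ z ∈ ball q.1.1 q.1.2, 1 < c ((ch p).symm z) :=
    fun q => by
      obtain ⟨b1, b2⟩ := Finset.mem_filter.1 q.2
      refine hC _ _ (a1 _ b1).1 (closedBall_subset_closedBall' ?_)
      linarith [(a1 _ b1).2.trans (min_le_right _ _)]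
  choose c c1 c2 using k
  refine ⟨t', inferInstance, fun q => q.1.2, c, fun q => ⟨⟨(a1 _ (Finset.mem_filter.1 q.2).1).1,
    (a1 _ (Finset.mem_filter.1 q.2).1).2.trans (min_le_left _ _)⟩, c1 q⟩, ?_, ?_⟩
  · rw [Finset.sum_coe_sort t' fun q => q.2 ^ ((n : ℝ) - 4)]
    exact (Finset.sum_le_sum_of_subset_of_nonneg (Finset.filter_subset _ _)
      fun q hq _ => Real.rpow_nonneg (a1 q hq).1.le _).trans (a3.trans (min_le_left _ _))
  · rintro _ ⟨hS, z, hz, rfl⟩
    obtain ⟨q, hq, b⟩ := mem_iUnion₂.1 (a2 ⟨hS, hz⟩)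
    refine ⟨⟨q, Finset.mem_filter.2 ⟨hq, ?_⟩⟩, c2 _ z b⟩
    linarith [dist_triangle_left q.1 (pt p) z, mem_ball.1 b, mem_closedBall.1 hz,
      (a1 q hq).2.trans (min_le_right _ _)]

/-- **COVER** -/
theorem cover : COVER := by
  intro n M _ g S R hg cS hR hN
  have cK : IsCompact S := (isCompact_px M R).of_isClosed_subset cS fun x hx => (hR x hx).le
  obtain ⟨C, H⟩ : Cvd g R S := cK.induction_on (p := Cvd g R)
    ⟨0, fun δ hδ => ⟨Empty, inferInstance, Empty.elim, Empty.elim, fun j => j.elim,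
      by simpa using hδ.le, by simp⟩⟩
    (fun s t hst ⟨C, H⟩ => ⟨C, fun δ hδ => let ⟨ι, i, s', c, a1, a2, a3⟩ := H δ hδ
      ⟨ι, i, s', c, a1, a2, fun x hx => a3 x (hst hx)⟩⟩)
    (fun s t => Cvd.union) fun p hp => cvd_loc hg (hR p hp) (hN _ (ch_mem p))
  refine ⟨C, fun δ hδ => ?_⟩
  obtain ⟨ι, _, s, c, a1, a2, a3⟩ := H δ hδ
  set f := (Fintype.equivFin ι).symm
  refine ⟨_, fun j => s (f j), fun j => c (f j), ⟨fun j => (a1 _).1, ?_, fun j => (a1 _).2.sm,
    fun j => (a1 _).2.gr, fun j => (a1 _).2.vol, fun j => (a1 _).2.out⟩, fun x hx => ?_⟩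
  · rwa [f.sum_comp fun j => s j ^ ((n : ℝ) - 4)]
  · obtain ⟨j, hj⟩ := a3 x hx
    exact ⟨f.symm j, by simpa using hj⟩

end Vale.Agent.P366M.G
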