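import Vale.Agent.P366Q.O.Rows
import Vale.Agent.P366M.SkE
import Vale.Agent.P366Y.G.Sch

/-!
# P366Q, block O, row ENER: the energy of a subharmonic function
-/

open MeasureTheory Metric Filter Topology Set
open scoped ContDiff ENNReal
open Vale.Agent.P366 Vale.Agent.P366.Stmt Vale.Agent.P366Z

noncomputable section

namespace Vale.Agent.P366M.G

namespace EnerX

/-- the lemma of Fatou for the cut-off functions -/
theorem fatou {n : ℕ} {M : Type} [Mfs n M] {D e : M → ℝ} {c : ℝ} (hD : Continuous D)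
    (h0 : ∀ x, 0 ≤ D x) (he : ∀ x, e x ≤ D x)
    (ht : Tendsto (fun r => ∫ x, cut r x * D x) atTop (𝓝 c)) :
    ∫⁻ x, ENNReal.ofReal (e x) ≤ ENNReal.ofReal c := by
  have h1 := lintegral_liminf_le (μ := volume) (u := atTop)
    (f := fun (r : ℝ) x => ENNReal.ofReal (cut r x * D x))
    fun r => ((sm_cut r).cont.mul hD).measurable.ennreal_ofReal
  have h2 : Tendsto (fun r => ∫⁻ x, ENNReal.ofReal (cut r x * D x)) atTop (𝓝 (.ofReal c)) :=
    (ENNReal.tendsto_ofReal ht).congr' ((eventually_gt_atTop 0).mono fun r hr =>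
      ofReal_integral_eq_lintegral_ofReal (integrable_of_out ((sm_cut r).cont.mul hD)
        fun y hy => by rw [cut_zero hr hy, zero_mul])
        (.of_forall fun x => mul_nonneg (cut_nonneg r x) (h0 x)))
  rw [h2.liminf_eq] at h1
  refine le_trans (lintegral_mono fun x => ?_) h1
  have h3 := (ENNReal.tendsto_ofReal ((cut_tendsto x).mul_const (D x))).liminf_eq
  rw [one_mul] at h3
  exact (ENNReal.ofReal_le_ofReal (he x)).trans h3.ge

/-- the expansion of the flux -/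
theorem est {n : ℕ} {M : Type} [Mfe n M] {U h : M → ℝ} {a β βh c : ℝ} (hn : 3 ≤ n)
    (hU : Asy U a β) (hv : Asy (fun x => h x * U x) a βh) (c0 : 0 < c) (c1 : c ≤ 1)
    (U0 : ∀ x, c ≤ U x ∧ U x ≤ 2) (h0 : ∀ x, 0 ≤ h x ∧ h x ≤ 1) :
    ∃ C R : ℝ, ∀ x : M, R ≤ ‖px x‖ → ∀ i,
      |h x * (U x * pd i (fun y => h y * U y) x - h x * U x * pd i U x) -
        (n - 2) * a * (β - βh) * px x i * ‖px x‖ ^ (-n : ℝ)| ≤ C * ‖px x‖ ^ (-n : ℝ) := by
  have e : ∀ y : E n, R0 M + 1 / 2 ≤ ‖y‖ → xfj Mfe.o 1 h y * xfj Mfe.o 1 U y =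
      xfj Mfe.o 1 (fun x => h x * U x) y := fun y hy => by rw [xfj_eq hy, xfj_eq hy, xfj_eq hy]
  obtain ⟨C, R, hC⟩ := P366Z.Y.SchX.est (h := xfj Mfe.o 1 h) hn (asyE_xfj.1 (hU.asyE Mfe.o))
    (asy_congr e (asyE_xfj.1 (hv.asyE Mfe.o))) c0 (xfj_mem ⟨c1, one_le_two⟩ U0)
    (xfj_mem ⟨zero_le_one, le_rfl⟩ h0)
  refine ⟨C, max R (R0 M + 1), fun x hx i => ?_⟩
  have r1 : R0 M + 1 / 2 < ‖px x‖ := by linarith [le_max_right R (R0 M + 1)]
  have := hC (px x) ((le_max_left _ _).trans hx) i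
  rwa [P366Z.pd_congr ((ev_lt_norm r1).mono fun y hy => e y hy.le), ← pd_xfj r1, ← pd_xfj r1,
    xfj_eq r1.le, xfj_eq r1.le, show ye Mfe.o (px x) = x from yp_px (by linarith)] at this

end EnerX

open EnerX in
/-- **ENER** -/
theorem ener : ENER := by
  intro n M _ B U a β R s' h βh hB hS sh h01 hsub as
  have hn := hB.dim
  have hg := hB.met
  have Ub : ∀ x, a / 2 ≤ U x ∧ U x ≤ 2 := fun x =>
    ⟨by nlinarith [hS.lo x, (hB.Ub x).1, hS.a0], (hS.hi x).trans (hB.Ub x).2⟩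
  have U0 : ∀ x, 0 < U x := fun x => (half_pos hS.a0).trans_le (Ub x).1
  have sv : Smooth fun x => h x * U x := CD.mul sh hS.sm
  refine ⟨?_, ?_⟩
  · have := (hS.asy.lin as hS.sm sv 1 (-1)).nonneg hn (R := 0) fun x _ => by
      linarith [mul_le_of_le_one_left (U0 x).le (h01 x).2]
    linarith
  have sY : CV ∞ fun i y => U y ^ 2 * gr B.g h i y := CV.smul (CD.pow hS.sm 2) (hg.sm_gr sh)
  have sX : CV ∞ fun i y => h y * (U y ^ 2 * gr B.g h i y) := CV.smul sh sY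
  have dX : ∀ x, dv B.g (fun i y => h y * (U y ^ 2 * gr B.g h i y)) x * dens B.g x =
      h x * wl B.g U h x * dens B.g x + U x ^ 2 * ip B.g h h x * dens B.g x := fun x => by
    rw [hg.dv_smul (sh.diff x) (sY.dv (by simp) x), ← wl_eq_dv _ _ (sh.c2 x), ip_eq_gr]
    simp only [mul_left_comm (pd _ h x), ← Finset.mul_sum]
    ring
  obtain ⟨C', R₁, h6⟩ := est hn hS.asy as (half_pos hS.a0) (by linarith [hS.a1]) Ub
    fun x => ⟨(h01 x).1.le, (h01 x).2⟩
  have fl := flux n M B.g _ ((n - 2) * a * (β - βh)) hn hg sX ⟨C', max R₁ B.ρ, fun x hx i => by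
    have r1 := (le_max_right _ _).trans hx
    refine le_of_eq_of_le ?_ (h6 x ((le_max_left _ _).trans hx) i)
    rw [hB.flat.dens_eq r1, hB.flat.gr_eq r1, pd_mul (sh.diff x) (hS.sm.diff x)]
    congr 1
    ring⟩
  have e0 : ∀ x, 0 ≤ h x * wl B.g U h x * dens B.g x := fun x =>
    mul_nonneg (mul_nonneg (h01 x).1.le (hsub x)) (dens_nonneg _ _)
  rw [show (n - 2) * omega n * a * (β - βh) = (n - 2) * a * (β - βh) * omega n by ring]
  simp only [mul_assoc (cut _ _)] at fl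
  exact fatou ((hg.sm_dv sX).cont.mul hg.sm_dens.cont) (fun x => (add_nonneg (e0 x)
    (mul_nonneg (mul_nonneg (sq_nonneg _) (hg.ip_nonneg _ _)) (dens_nonneg _ _))).trans (dX x).ge)
    (fun x => (le_add_of_nonneg_left (e0 x)).trans (dX x).ge) fl

end Vale.Agent.P366M.G
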