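import Vale.Agent.P366Q.O.Rows
import Vale.Agent.P366Q.G.LinkB
import Vale.Agent.P366M.SkE

/-!
# P366Q, block O: the step `ONE` from its rows
-/

open MeasureTheory Metric Filter Topology Set
open scoped ContDiff ENNReal
open Vale.Agent.P366 Vale.Agent.P366.Stmt Vale.Agent.P366Z

noncomputable section

namespace Vale.Agent.P366M.G

variable {n : ℕ} {M : Type} [Mfe n M]

theorem exists_tip {Am Ap : Set M} (om : IsOpen Am) (op : IsOpen Ap) (dj : Disjoint Am Ap)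
    (hn : 2 ≤ n) (hm : Am.Nonempty) {r ρ : ℝ} (hρ : R0 M ≤ ρ) (far : ∀ x, r ≤ ‖px x‖ → x ∈ Ap) :
    ∃ x₀, x₀ ∉ Am ∧ x₀ ∉ Ap ∧ ‖px x₀‖ < r ∧ ∀ x, max ‖px x₀‖ ρ < ‖px x‖ → x ∈ Ap := by
  have hc : IsCompact (Am ∪ Ap)ᶜ := (isCompact_px M r).of_isClosed_subset (om.union op).isClosed_compl
    fun x hx => (not_le.1 fun k => hx (Or.inr (far x k))).le
  have k0 : ∀ L, R0 M ≤ L → ∃ x : M, L < ‖px x‖ ∧ x ∈ Ap := fun L hL => by
    obtain ⟨x, hx⟩ := (Lk.ext_conn (M := M) hn (le_max_of_le_left hL : R0 M ≤ max L r)).nonempty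
    exact ⟨x, (le_max_left _ _).trans_lt hx, far x ((le_max_right _ _).trans (le_of_lt hx))⟩
  have hne : (Am ∪ Ap)ᶜ.Nonempty := by
    rw [nonempty_compl]
    intro k
    obtain ⟨x, -, hx⟩ := k0 _ le_rfl
    obtain ⟨y, -, h1, h2⟩ := isPreconnected_univ (α := M) Am Ap om op k.ge
      (by simpa using hm) ⟨x, mem_univ _, hx⟩
    exact dj.notMem_of_mem_left h1 h2
  obtain ⟨x₀, h0, h1⟩ := hc.exists_isMaxOn hne cont_npx.continuousOn
  have h2 : x₀ ∉ Ap := fun k => h0 (Or.inr k)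
  refine ⟨x₀, fun k => h0 (Or.inl k), h2, not_le.1 fun k => h2 (far _ k), fun x hx => ?_⟩
  have hL : R0 M ≤ max ‖px x₀‖ ρ := le_max_of_le_right hρ
  obtain ⟨y, h3, h4⟩ := k0 _ hL
  refine (Lk.ext_conn (M := M) hn hL).isPreconnected.subset_right_of_subset_union om op dj
    (fun z hz => ?_) ⟨y, h3, h4⟩ hx
  by_contra k
  exact (h1 k).not_gt ((le_max_left _ ρ).trans_lt hz)

theorem one_of (hM : MB) (hC : COVER) (hP : PHI) (hD : BDC) (hR : MASSR) (hE : ENER) (hA : ASY) :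
    ONE := by
  intro n M _ C'
  obtain ⟨c', c'0, c'8, hM⟩ := hM n M C'
  refine ⟨c', c'0, c'8, 2 ^ bb n, by positivity, fun C₀ => ?_⟩
  obtain ⟨c, c0, hM⟩ := hM C₀
  refine ⟨c, c0, 4, by norm_num, fun B L a₀ δ₀ D m p q hB hp a₀0 hδ D0 hSm =>
    ⟨B.h / 4, by linarith [hB.h0], fun U a β R s' hS ha κ hκ r hCf hD' η' η'0 ρ' hρ' η η0 => ?_⟩⟩
  have hn := hB.dim
  have hb := bb_pos hn
  have a0 := hS.a0
  have U0 : ∀ x, 0 < U x := fun x =>
    lt_of_lt_of_le (mul_pos a0 (by linarith [(hB.Ub x).1])) (hS.lo x)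
  obtain ⟨Am, Ap, S, hz⟩ := hM B L m p q hB hp U a β R s' hS κ hκ r hCf ρ' hρ'
  have RM := hB.flat.R
  have ρ1 := hB.one
  obtain ⟨y₀, hy₀⟩ := hB.deep
  have ym : y₀ ∈ Am := hz.col y₀ (by linarith [hS.s1, hρ'.2, hB.s0])
  obtain ⟨x₀, x1, x2, x3, x4⟩ := exists_tip hz.sd.om hz.sd.op hz.sd.dj (by omega) ⟨y₀, ym⟩
    (ρ := B.ρ) (by linarith) hz.far
  set rm := max ‖px x₀‖ B.ρ with hrm
  have r1 : B.ρ ≤ rm := le_max_right _ _
  set D' := D * a ^ (-bb n) with hD''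
  have ab : 0 < a ^ bb n := by positivity
  have e1 : a ^ bb n * D' = D := by
    rw [hD'', mul_left_comm, ← Real.rpow_add a0]; simp
  have D'0 : 0 < D' := by positivity
  have r0 : 0 < r := pos_of_mul_pos_right (lt_of_lt_of_le (by linarith) hCf.ρr) c'0.le
  have far : ∀ x, rm + D' / 2 ≤ ‖px x‖ → x ∈ Ap := fun x hx => x4 x (by linarith)
  obtain ⟨C, hC⟩ := hC n M B.g S (rm + D' / 2) hB.met hz.sd.cS
    (fun x hx => not_le.1 fun k => (hz.sd.sub x hx).2 (far x k)) hz.sd.nul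
  obtain ⟨δ, δ0, hD⟩ := hD n M B U a β R s' a₀ δ₀ (rm + D' / 2) (rm + D') C hB hS a₀0 ha hδ hSm
    (by linarith) (by linarith)
  obtain ⟨N, s, b, hb1, hb2⟩ := hC δ δ0
  have oO : IsOpen {x | ∃ j, 1 < b j x} := by
    rw [ofPred_exists]
    exact isOpen_iUnion fun j => isOpen_lt continuous_const (hb1.sm j).continuous
  obtain ⟨φ, φ1, φ2, φ3, φ4, φ5⟩ := hP n M B.g U κ (rm + D' / 2) Am Ap S _ hn hB.met hS.sm U0 hz.sd
    oO hb2 (by linarith) far
  have φc := φ1.1.continuous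
  obtain ⟨h, βh, t, h1, h2, h3, h4, h5, t0, h6, h7⟩ := hD N s b φ hb1 φ1 (by
      obtain ⟨x, hx⟩ := φ1.2.2.1.nonempty
      exact intermediate_value_univ y₀ x φc ⟨(φ3 _ ym).le, hx⟩)
    (fun x hx => by
      by_contra k
      exact (φ3 x (hz.col x (by linarith [hS.s1, hρ'.2, hB.s0]))).not_ge hx) φ4
    (fun x hx => (φ5 x hx).imp id fun k => k.trans_lt hκ.2) η' η'0
  obtain ⟨ψ, k1, k2, k3, k4⟩ := hz.seq η η0 {x | t ≤ φ x} (isClosed_le continuous_const φc)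
    (fun x hx => φ2 x (t0.trans_le hx)) x₀ x1 x2
  obtain ⟨k5, k6⟩ := hE n M B U a β R s' h βh hB hS h1 h2 h3 h5
  have A1 := (hA n M _ _ _ _ _ _ hn hS.sm (h1.mul hS.sm) hS.asy).2.2.1 (1 / 2) ((1 - δ₀) / 2) h5
  have e2 : (fun x => 1 / 2 * U x + (1 - δ₀) / 2 * (h x * U x)) =
      fun x => U x * (1 + (1 - δ₀) * h x) / 2 := funext fun x => by ring
  rw [e2] at A1
  have av : a / 2 ≤ 1 / 2 * a + (1 - δ₀) / 2 * a := by nlinarith [hδ.2]
  have m0 := hR n M _ _ _ _ hn (by linarith) (by linarith) h7 A1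
  refine ⟨ψ, h, βh, rm + D', ⟨k1, k2, h1, h2, h3, h4, h5, fun x hx => h6 x ?_, by linarith,
    by linarith, k5, k6, fun e he => ⟨h7, _, _, by linarith, A1, ?_⟩⟩, ?_, fun r' q1 q2 q3 q4 => ?_⟩
  · rcases hx with hx | hx
    · exact (not_le.1 fun k => hx.ne (k3 x k)).le
    · linarith [φ3 x (hz.col x hx)]
  · have p1 := Real.rpow_le_rpow_of_nonpos (half_pos a0) av (show -bb n - 1 ≤ 0 by linarith)
    have p2 : (a / 2) ^ (-bb n - 1) = 2 * 2 ^ bb n * a ^ (-bb n - 1) := by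
      rw [Real.div_rpow a0.le two_pos.le, show -bb n - 1 = -(bb n + 1) by ring,
        Real.rpow_neg two_pos.le, Real.rpow_add_one two_ne_zero]
      field_simp
    have p3 := mul_le_mul_of_nonneg_left (p1.trans p2.le) m0
    linarith
  · have p1 : 2 * D' ≤ c' * r := le_of_mul_le_mul_left (by linarith) ab
    have p2 : rm ≤ 7 / 8 * r := max_le x3.le (by nlinarith [hCf.ρr])
    nlinarith
  · have p1 : 4 * D' ≤ r' := le_of_mul_le_mul_left (by linarith) ab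
    have p2 : rm = ‖px x₀‖ := max_eq_left (le_of_not_gt fun k => by
      rw [hrm, max_eq_right k.le] at q2; linarith)
    exact ⟨px x₀, by linarith, by linarith, k4 (by linarith) fun y hy => q4 y (by linarith)⟩

end Vale.Agent.P366M.G
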