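import Vale.Agent.P366Q.O.Phi0
import Vale.Agent.P366M.Sard

/-!
# P366Q, block O: the row PHI
-/

open MeasureTheory Metric Filter Topology Set
open scoped ContDiff ENNReal
open Vale.Agent.P366 Vale.Agent.P366.Stmt Vale.Agent.P366Z

noncomputable section

namespace Vale.Agent.P366M.G

variable {n : ℕ} {M : Type} [Mfe n M] {g : Fld n M} {U u : M → ℝ} {κ R : ℝ} {Am Ap S O : Set M}

theorem ext_conn' (hn : 2 ≤ n) (hR : R0 M ≤ R) : IsConnected {x : M | R ≤ ‖px x‖} := by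
  have R0' : 0 < R := by linarith [R0_ge M]
  have h : IsConnected {y : E n | R ≤ ‖y‖} := by
    refine (P366Z.Lk.ext_conn hn (L := R) R0'.le).subset_closure (fun y (hy : R < ‖y‖) => hy.le)
      fun y hy => ?_
    rw [show {y : E n | R < ‖y‖} = (closedBall 0 R)ᶜ by ext; simp, closure_compl,
      interior_closedBall _ R0'.ne']
    simpa using hy
  have h' := h.image (yp : E n → M)
    fun y hy => (tendsto_ye_nhds (hR.trans hy)).mono_left nhdsWithin_le_nhds
  refine (congrArg IsConnected (Subset.antisymm ?_ fun x hx => ?_)).mp h'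
  · rintro _ ⟨y, hy, rfl⟩
    rwa [mem_ofPred_eq, px_yp (by linarith [show R ≤ ‖y‖ from hy])]
  · exact ⟨px x, hx, yp_px (by linarith [show R ≤ ‖px x‖ from hx])⟩

/-- the component of the end, unchanged near the component -/
theorem comp2 (hn : 2 ≤ n) (hu : Smooth u) (hr : ∀ x, u x = 0 → ∃ i, pd i u x ≠ 0) {C : ℝ}
    (hR : R0 M ≤ R) (h1 : ∀ x, R ≤ ‖px x‖ → 0 < u x) (h2 : ∀ x, u x < C) :
    ∃ G, IsExt G ∧ (∀ x, G x ≤ u x) ∧ (∀ x, 0 ≤ G x → G =ᶠ[𝓝 x] u) ∧
      ∀ x, R ≤ ‖px x‖ → G x = u x := by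
  obtain ⟨β, G, sβ, ⟨-, -, g3, L, g4⟩, -, -, b1, b2, -⟩ := Lk.comp (L := R) (C := C) (Q := ∅) hn hu
    hr (fun x hx => h1 x hx.le) (by simpa using h2) isClosed_empty (by simp)
  obtain ⟨⟨x₀, hx₀⟩, -⟩ := ext_conn' (M := M) (R := max R (L + 1)) hn (le_max_of_le_left hR)
  obtain ⟨x1, x2⟩ : R ≤ ‖px x₀‖ ∧ L + 1 ≤ ‖px x₀‖ := max_le_iff.1 hx₀
  have C0 : 0 < C := (h1 x₀ x1).trans (h2 x₀)
  set G' := fun x => u x - C * Real.smoothTransition (2 * β x - 1) with hG
  have le : ∀ x, G' x ≤ u x := fun x =>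
    sub_le_self _ (mul_nonneg C0.le (Real.smoothTransition.nonneg _))
  have ev : ∀ x, β x = 0 → G' =ᶠ[𝓝 x] u := fun x hx => by
    filter_upwards [sβ.cont.continuousAt.eventually_lt continuousAt_const
      (show β x < 1 / 2 by rw [hx]; norm_num)] with y hy
    simp only [hG, Real.smoothTransition.zero_of_nonpos (show 2 * β y - 1 ≤ 0 by linarith),
      mul_zero, sub_zero]
  have z : ∀ x, 0 ≤ G x → β x = 0 := fun x hx => by rw [(b2 x (b1 x hx)).2, if_pos hx]
  have k : ∀ x, 0 ≤ G' x → 0 ≤ G x := fun x hx => by_contra fun c => by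
    have := (b2 x (hx.trans (le x))).2
    rw [if_neg c] at this
    simp only [hG, this, Real.smoothTransition.one_of_one_le (show 1 ≤ 2 * (1 : ℝ) - 1 by norm_num)]
      at hx
    linarith [h2 x]
  have far : ∀ x, R ≤ ‖px x‖ → G' x = u x := fun x hx => by
    refine (ev x (by_contra fun c => ?_)).eq_of_nhds
    have v : ∀ y, R ≤ ‖px y‖ → β y = 0 ∨ β y = 1 := fun y hy => by
      rw [(b2 y (h1 y hy).le).2]; split_ifs <;> simp
    obtain ⟨y, hy, e⟩ := (ext_conn' hn hR).isPreconnected.intermediate_value x1 hx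
      sβ.cont.continuousOn (show 1 / 2 ∈ Icc (β x₀) (β x) by
        rw [z x₀ (g4 x₀ (by linarith)).le, (v x hx).resolve_left c]
        norm_num)
    rcases v y hy with c | c <;> rw [c] at e <;> norm_num at e
  refine ⟨G', ⟨CD.sub hu (CD.mul cd_const (Real.smoothTransition.contDiff.compM
    (CD.sub (CD.mul cd_const sβ) cd_const))), fun x hx => ?_, ?_, R, fun x hx => ?_⟩, le,
    fun x hx => ev x (z x (k x hx)), far⟩
  · have e := ev x (z x (k x hx.ge))
    simpa only [pd_congr e] using hr x (e.eq_of_nhds.symm.trans hx)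
  · rwa [show {x | 0 ≤ G' x} = {x | 0 ≤ G x} from
      Set.ext fun x => ⟨k x, fun hx => (b1 x hx).trans (ev x (z x hx)).eq_of_nhds.ge⟩]
  · rw [far x hx.le]
    exact h1 x hx.le

/-- a defining function on the open set `W` -/
structure Lc (g : Fld n M) (U : M → ℝ) (κ : ℝ) (Am Ap W : Set M) (f : M → ℝ) : Prop where
  opn : IsOpen W
  p : ∀ y ∈ W, y ∈ Ap ↔ 0 < f y
  m : ∀ y ∈ W, y ∈ Am ↔ f y < 0
  z : ∀ y ∈ W, f y = 0 → gn g f y ≠ 0 ∧ mcw g U f y = κ

theorem Sd.lc (H : Sd g U κ Am Ap S) (hg : Met g) (x : M) :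
    ∃ W f, Smooth f ∧ (x ∉ S → x ∈ W ∧ Lc g U κ Am Ap W f) := by
  by_cases hp : x ∈ Ap
  · exact ⟨Ap, fun _ => 1, cd_const, fun _ => ⟨hp, H.op, fun y hy => by simp [hy],
      fun y hy => by simp [disjoint_right.1 H.dj hy], by simp⟩⟩
  by_cases hm : x ∈ Am
  · exact ⟨Am, fun _ => -1, cd_const, fun _ => ⟨hm, H.om,
      fun y hy => by simp [disjoint_left.1 H.dj hy], fun y hy => by simp [hy], by simp⟩⟩
  by_cases hS : x ∈ S
  · exact ⟨∅, fun _ => 0, cd_const, fun k => (k hS).elim⟩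
  obtain ⟨f, sf, d, e⟩ := H.reg x hm hp hS
  obtain ⟨W, h1, h2, h3⟩ := _root_.eventually_nhds_iff.1
    (e.and ((hg.cont_gn sf.one).continuousAt.eventually_ne d))
  exact ⟨W, f, sf, fun _ => ⟨h3, h2, fun y hy => (h1 y hy).1.1, fun y hy => (h1 y hy).1.2.1,
    fun y hy k => ⟨(h1 y hy).2, (h1 y hy).1.2.2 k⟩⟩⟩

/-- the defining function before the choice of the component -/
theorem phi0 (hg : Met g) (hU : Smooth U) (U0 : ∀ x, 0 < U x) (H : Sd g U κ Am Ap S)
    (hO : IsOpen O) (hS : S ⊆ O) (hR : ∀ x, R ≤ ‖px x‖ → x ∈ Ap) : ∃ u, Smooth u ∧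
      (∀ x, u x = 0 → ∃ i, pd i u x ≠ 0) ∧ (∀ x, 0 < u x → x ∈ Ap) ∧ (∀ x ∈ Am, u x < 0) ∧
      (∀ x, R ≤ ‖px x‖ → 0 < u x) ∧ (∀ᶠ x in cocompact M, u x = 1) ∧
      ∀ x, u x = 0 → x ∈ O ∨ mcw g U u x = κ := by
  classical
  choose W f sf hW using H.lc hg
  have hK : ∀ x, x ∉ Ap → ‖px x‖ < R := fun x hx => not_le.1 fun k => hx (hR x k)
  obtain ⟨t, χ, sχ, c1, c2, c3, c4⟩ := exists_pou (isCompact_px M R)
    (fun p => (if p ∈ S then O ∩ {y | ‖px y‖ < R} else W p) ∩ {y | ‖px y‖ < ‖px p‖ + 1}) fun p => by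
      refine inter_mem ?_ ((isOpen_lt cont_npx continuous_const).mem_nhds (lt_add_one ‖px p‖))
      split_ifs with hp
      · exact inter_mem (hO.mem_nhds (hS hp))
          ((isOpen_lt cont_npx continuous_const).mem_nhds (hK p (H.sub p hp).2))
      · exact (hW p hp).2.opn.mem_nhds (hW p hp).1
  set t₁ := t.filter (· ∉ S)
  set t₂ := t.filter (· ∈ S)
  have w1 : ∀ p ∈ t₁, ∀ y ∈ tsupport (χ p), y ∈ W p ∧ Lc g U κ Am Ap (W p) (f p) :=
    fun p hp y hy => by
      have a := (Finset.mem_filter.1 hp).2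
      exact ⟨by simpa only [if_neg a] using (c1 p hy).1, (hW p a).2⟩
  have w2 : ∀ p ∈ t₂, ∀ y ∈ tsupport (χ p), y ∈ O ∧ ‖px y‖ < R := fun p hp y hy => by
    have := (c1 p hy).1
    rwa [if_pos (Finset.mem_filter.1 hp).2] at this
  set σ := fun y => ∑ p ∈ t₂, χ p y with hσ
  set v := fun y => ∑ p ∈ t₁, χ p y * f p y with hv
  set w := fun y => v y + (1 - ∑ p ∈ t, χ p y) with hw
  have sσ : Smooth σ := CD.sum fun p _ => sχ p
  have sv : Smooth v := CD.sum fun p _ => CD.mul (sχ p) (sf p)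
  have sw : Smooth w := CD.add sv (CD.sub cd_const (CD.sum fun p _ => sχ p))
  have σ0 : ∀ y, 0 ≤ σ y := fun y => Finset.sum_nonneg fun p _ => c2 p y
  have sp : ∀ y, σ y + ∑ p ∈ t₁, χ p y = ∑ p ∈ t, χ p y := fun y =>
    Finset.sum_filter_add_sum_filter_not _ _ _
  have ex : ∀ y, σ y = 0 → ∑ p ∈ t, χ p y = 1 → ∃ p ∈ t₁, 0 < χ p y := fun y h0 h1 => by
    obtain ⟨p, hp, k⟩ := Finset.exists_ne_zero_of_sum_ne_zero (s := t₁) (f := fun p => χ p y)
      (by linarith [sp y])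
    exact ⟨p, hp, (c2 p y).lt_of_ne k.symm⟩
  have wv : ∀ x, x ∉ Ap → w =ᶠ[𝓝 x] v := fun x hx => (c4 x (hK x hx).le).mono fun y hy => by
    simp only [hw, hy, sub_self, add_zero]
  have neg : ∀ x, x ∉ Ap → ∀ p ∈ t₁, χ p x * f p x ≤ 0 := fun x hx p hp => by
    rcases (c2 p x).eq_or_lt with k | k
    · rw [← k, zero_mul]
    · obtain ⟨a, b⟩ := w1 p hp x (subset_tsupport _ k.ne')
      exact mul_nonpos_of_nonneg_of_nonpos k.le (not_lt.1 fun c => hx ((b.p x a).2 c))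
  have wn : ∀ x, x ∉ Ap → w x ≤ 0 := fun x hx =>
    (wv x hx).eq_of_nhds.trans_le (Finset.sum_nonpos (neg x hx))
  have wm : ∀ x ∈ Am, σ x = 0 → w x < 0 := fun x hx h0 => by
    have hp := disjoint_left.1 H.dj hx
    obtain ⟨p, a, k⟩ := ex x h0 (c4 x (hK x hp).le).self_of_nhds
    obtain ⟨b, c⟩ := w1 p a x (subset_tsupport _ k.ne')
    exact (wv x hp).eq_of_nhds.trans_lt (Finset.sum_neg' (neg x hp)
      ⟨p, a, mul_neg_of_pos_of_neg k ((c.m x b).1 hx)⟩)
  have wp : ∀ x ∈ Ap, σ x = 0 → 0 < w x := fun x hx h0 => by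
    have pos : ∀ p ∈ t₁, 0 < χ p x → 0 < χ p x * f p x := fun p hp k => by
      obtain ⟨a, b⟩ := w1 p hp x (subset_tsupport _ k.ne')
      exact mul_pos k ((b.p x a).1 hx)
    have nn : ∀ p ∈ t₁, 0 ≤ χ p x * f p x := fun p hp => by
      rcases (c2 p x).eq_or_lt with k | k
      · rw [← k, zero_mul]
      · exact (pos p hp k).le
    rcases (c3 x).eq_or_lt with k | k
    · obtain ⟨p, a, b⟩ := ex x h0 k
      exact add_pos_of_pos_of_nonneg (Finset.sum_pos' nn ⟨p, a, pos p a b⟩) (sub_nonneg.2 k.le)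
    · exact add_pos_of_nonneg_of_pos (Finset.sum_nonneg nn) (sub_pos.2 k)
  have key : ∀ x, σ x = 0 → w x = 0 → gn g w x ≠ 0 ∧ mcw g U w x = κ := fun x h0 hx => by
    have hp : x ∉ Ap := fun k => (wp x k h0).ne' hx
    have hm : x ∉ Am := fun k => (wm x k h0).ne hx
    have z : ∀ p ∈ t₁, x ∈ tsupport (χ p) → f p x = 0 := fun p a k =>
      let ⟨b, c⟩ := w1 p a x k
      le_antisymm (not_lt.1 fun d => hp ((c.p x b).2 d)) (not_lt.1 fun d => hm ((c.m x b).2 d))
    obtain ⟨q, a, k⟩ := ex x h0 (c4 x (hK x hp).le).self_of_nhds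
    have k' := subset_tsupport _ k.ne'
    obtain ⟨b, c⟩ := w1 q a x k'
    have d := (c.z x b (z q a k')).1
    have : ∀ p, ∃ l > (0 : ℝ), p ∈ t₁ →
        Pt g U κ (f q) (fun y => χ p y * f p y) (χ p x * l) x := fun p => by
      by_cases hp : p ∈ t₁ ∧ x ∈ tsupport (χ p)
      · obtain ⟨b', c'⟩ := w1 p hp.1 x hp.2
        obtain ⟨d', e'⟩ := c'.z x b' (z p hp.1 hp.2)
        obtain ⟨l, l0, e⟩ := par ((sf q).diff x) ((sf p).diff x) (z q a k') (z p hp.1 hp.2) d d' (by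
          filter_upwards [c.opn.mem_nhds b, c'.opn.mem_nhds b'] with y y1 y2 y3
          exact ((c'.p y y2).1 ((c.p y y1).2 y3)).le)
        exact ⟨l, l0, fun _ => (pt_of hg hU U0 (sf p) l0 e d' e').mul hg ((sf p).c2 x)
          ((sχ p).c2 x) (z p hp.1 hp.2)⟩
      · refine ⟨1, one_pos, fun h1 => ?_⟩
        have e := notMem_tsupport_iff_eventuallyEq.1 fun h2 => hp ⟨h1, h2⟩
        rw [e.eq_of_nhds, Pi.zero_apply, zero_mul]
        exact pt_zero.congr (e.mono fun y hy => by simp only [hy, Pi.zero_apply, zero_mul])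
    choose l l0 hl using this
    exact ((pt_sum t₁ (fun p => ((sχ p).c2 x).mul ((sf p).c2 x)) fun p hp => hl p hp).congr
      (wv x hp)).mcw hg hU U0 sw (Finset.sum_pos' (fun p _ => mul_nonneg (c2 p x) (l0 p).le)
        ⟨q, a, mul_pos k (l0 q)⟩) d
  obtain ⟨c, ⟨c0, -⟩, hc⟩ := exists_regular_on (u := fun y => w y / σ y) (s := {y | σ y ≠ 0})
    (fun x hx => (CD.contDiffAt sw).div (CD.contDiffAt sσ) hx) zero_lt_one
  have σz : ∀ x, ¬(x ∈ O ∧ ‖px x‖ < R) → σ =ᶠ[𝓝 x] fun _ => 0 := fun x hx =>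
    ((eventually_all_finset t₂).2 fun p hp => notMem_tsupport_iff_eventuallyEq.1
      fun k => hx (w2 p hp x k)).mono fun y hy => Finset.sum_eq_zero hy
  have dd : ∀ x i, pd i (fun y => w y - c * σ y) x = pd i w x - c * pd i σ x := fun x i => by
    rw [pd_sub (sw.diff x) ((sσ.diff x).const_mul c), pd_const_mul]
  refine ⟨fun y => w y - c * σ y, CD.sub sw (CD.mul cd_const sσ), fun x hx => ?_, fun x hx => ?_,
    fun x hx => ?_, fun x hx => ?_, ?_, fun x hx => ?_⟩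
  · replace hx : w x = c * σ x := sub_eq_zero.1 hx
    by_cases h0 : σ x = 0
    · simpa only [dd, pd_of_isLocalMin (u := σ) (.of_forall fun y => h0.trans_le (σ0 y)), mul_zero,
        sub_zero] using (gn_ne hg).1 (key x h0 (by rw [hx, h0, mul_zero])).1
    · obtain ⟨i, hi⟩ := hc x h0 (by rw [hx, mul_div_cancel_right₀ _ h0])
      refine ⟨i, fun k => hi ?_⟩
      rw [dd, sub_eq_zero] at k
      rw [pd_div (sw.diff x) (sσ.diff x) h0, k, hx]
      ring
  · by_contra k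
    linarith [wn x k, mul_nonneg c0.le (σ0 x)]
  · rcases (σ0 x).eq_or_lt with k | k
    · linarith [wm x hx k.symm, mul_nonneg c0.le (σ0 x)]
    · linarith [wn x (disjoint_left.1 H.dj hx), mul_pos c0 k]
  · have := (σz x fun k => k.2.not_ge hx).eq_of_nhds
    simpa only [this, mul_zero, sub_zero] using wp x (hR x hx) this
  · filter_upwards [(eventually_all_finset t).2 fun p _ => ev_cocompact.2
      ⟨‖px p‖ + 1, fun x hx => image_eq_zero_of_notMem_tsupport
        fun k => (show ‖px x‖ < _ from (c1 p k).2).not_ge hx⟩] with x hx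
    have a : σ x = 0 := Finset.sum_eq_zero fun p hp => hx p (Finset.mem_filter.1 hp).1
    have b : v x = 0 := Finset.sum_eq_zero fun p hp => by
      rw [hx p (Finset.mem_filter.1 hp).1, zero_mul]
    simp only [hw, a, b, Finset.sum_eq_zero hx]
    ring
  · refine or_iff_not_imp_left.2 fun k => ?_
    have e := σz x fun k' => k k'.1
    have e' : (fun y => w y - c * σ y) =ᶠ[𝓝 x] w := e.mono fun y hy => by
      simp only [hy, mul_zero, sub_zero]
    rw [mcw_congr e']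
    exact (key x e.eq_of_nhds (e'.eq_of_nhds.symm.trans hx)).2

/-- **PHI** -/
theorem phi : PHI := by
  intro n M _ g U κ R Am Ap S O hn hg hU U0 H hO hS hR h
  obtain ⟨u, su, u1, u2, u3, u4, u5, u6⟩ := phi0 hg hU U0 H hO hS h
  obtain ⟨K, hK, u7⟩ := mem_cocompact.1 u5
  obtain ⟨C, hC⟩ := hK.exists_bound_of_continuousOn su.cont.continuousOn
  obtain ⟨G, g1, g2, g3, g4⟩ := comp2 (C := max C 1 + 1) (by omega) su u1 hR u4 fun x => by
    by_cases hx : x ∈ K
    · linarith [le_max_left C 1, (le_abs_self _).trans (hC x hx)]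
    · linarith [le_max_right C 1, show u x = 1 from u7 hx]
  obtain ⟨t, t0, ht⟩ := (hK.inter_right (isClosed_le (continuous_const (y := R))
    cont_npx)).exists_forall_le' su.cont.continuousOn (a := 0) fun x hx => u4 x hx.2
  refine ⟨G, g1, fun x hx => u2 x (hx.trans_le (g2 x)), fun x hx => (g2 x).trans_lt (u3 x hx),
    ⟨min t 1, by positivity, fun x hx => ?_⟩, fun x hx => ?_⟩
  · rw [g4 x hx]
    by_cases k : x ∈ K
    · exact min_le_of_left_le (ht x ⟨k, hx⟩)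
    · exact min_le_of_right_le (show u x = 1 from u7 k).ge
  · rw [mcw_congr (g3 x hx.ge)]
    exact u6 x ((g3 x hx.ge).eq_of_nhds.symm.trans hx)

end Vale.Agent.P366M.G
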