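import Vale.Agent.P366Q.O.Tch
import Vale.Agent.P366Q.G.Int

/-!
# P366Q, block O: the inner and the outer barrier
-/

open MeasureTheory Metric Filter Topology Set
open scoped ContDiff ENNReal
open Vale.Agent.P366 Vale.Agent.P366.Stmt Vale.Agent.P366Z

noncomputable section

namespace Vale.Agent.P366M.G

variable {n : ℕ} {M : Type} [Mfe n M] {B : Bg n M} {L a β R s' κ : ℝ} {m p q U : M → ℝ}

theorem big_of {c : ℝ} (hc : 0 < c) (D : ℝ) : ∃ δ > (0 : ℝ), ∀ τ t y : ℝ, 0 < τ → τ ≤ δ →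
    |τ * t| ≤ δ → c ≤ τ * y → D ≤ y - t := by
  refine ⟨c / (|D| + 2), by positivity, fun τ t y h0 h1 h2 h3 => ?_⟩
  have k0 : 0 < c / (|D| + 2) := by positivity
  have k1 : c / (|D| + 2) * (|D| + 2) = c := by field_simp
  have k2 := (abs_le.1 h2).2
  have k3 := mul_le_mul_of_nonneg_right h1 (abs_nonneg D)
  have k4 := mul_le_mul_of_nonneg_left (le_abs_self D) h0.le
  exact le_of_mul_le_mul_left (a := τ) (by nlinarith) h0

theorem St.w_pos (hB : B.Ok) (hS : St B U a β R s') (x : M) : 0 < U x ^ (2 * gam n) :=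
  Real.rpow_pos_of_pos (hS.pos hB x) _

theorem St.w_le (hB : B.Ok) (hS : St B U a β R s') (x : M) :
    U x ^ (2 * gam n) ≤ 2 ^ (2 * gam n) :=
  Real.rpow_le_rpow (hS.pos hB x).le (hS.le_two hB x) (by linarith [one_lt_gam hB.dim])

theorem St.le_w (hB : B.Ok) (hS : St B U a β R s') (x : M) :
    (a / 2) ^ (2 * gam n) ≤ U x ^ (2 * gam n) :=
  Real.rpow_le_rpow (half_pos hS.a0).le (hS.half hB x) (by linarith [one_lt_gam hB.dim])

theorem St.w_sm (hB : B.Ok) (hS : St B U a β R s') : Smooth fun x => U x ^ (2 * gam n) :=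
  hS.sm.rpow (hS.pos hB) _

theorem Bg.Ok.near (hB : B.Ok) {x : M} (hx : B.F x ≤ B.s) : ‖px x‖ < B.ρ :=
  not_le.1 fun k => (hB.far x k).not_ge hx

/-- **the inner barrier** -/
theorem col (hB : B.Ok) (hP : Pen B L m p q) (hS : St B U a β R s')
    (hκ : κ ∈ Icc (-(B.h / 4)) 0) : ∃ T₀ : ℝ, ∀ T ≥ T₀, ∀ ρ' > (0 : ℝ), ∀ l : ℝ, ∃ δ > (0 : ℝ),
      ∀ (τ t : ℝ) (f : M → ℝ), 0 < τ → τ ≤ δ → |τ * t| ≤ δ → Cq B L m p q U κ T τ f →
        ∀ x, B.F x ≤ s' - ρ' → f x - t ≤ -l := by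
  have hg := hB.met
  have h0 := hB.h0
  have s0 := hB.s0
  have hσ : Smooth fun x => s' - B.F x := cd_const.sub hB.smF
  have U0 : ∀ x, 0 < B.U x := fun x => by linarith [(hB.Ub x).1]
  have hw : Smooth fun x => B.U x ^ (2 * gam n) := hB.smU.rpow U0 _
  have cF := hB.smF.cont
  have e1 : ∀ x, ip B.g (fun x => s' - B.F x) (fun x => s' - B.F x) x = ip B.g B.F B.F x :=
    fun x => by simp only [ip, pd_const_sub, mul_neg, neg_mul, neg_neg]
  have K1 : IsCompact {x | |B.F x| ≤ B.s} :=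
    (isCompact_px M B.ρ).of_isClosed_subset (isClosed_le cF.abs continuous_const)
      fun x hx => (hB.near (abs_le.1 hx).2).le
  have K2 : IsCompact {x | B.F x ≤ -(3 * B.s / 4)} :=
    (isCompact_px M B.ρ).of_isClosed_subset (isClosed_le cF continuous_const)
      fun x (hx : B.F x ≤ _) => (hB.near (by linarith)).le
  have ev : ∀ᶠ ε in 𝓝 (0 : ℝ), ∀ x ∈ {x | |B.F x| ≤ B.s},
      B.h / 2 < gq B.g (fun x => B.U x ^ (2 * gam n)) (fun x => s' - B.F x) ε x := by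
    refine K1.eventually_forall_of_forall_eventually fun x hx => ?_
    obtain ⟨k1, k2⟩ := hB.cal x hx
    have k3 : 0 < (0 : ℝ) ^ 2 * (s' - B.F x) ^ 2 +
        ip B.g (fun x => s' - B.F x) (fun x => s' - B.F x) x := by
      rw [e1, ← hg.gn_sq]; positivity
    refine (cont_gq hg hw hσ k3).eventually (lt_mem_nhds ?_)
    show _ < gq _ _ _ 0 x
    rw [← dv_gq hg (hw.diff x) hσ k3]
    have : (fun i y => B.U y ^ (2 * gam n) * gr B.g (fun x => s' - B.F x) i y /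
        √(0 ^ 2 * (s' - B.F y) ^ 2 + ip B.g (fun x => s' - B.F x) (fun x => s' - B.F x) y)) =
        fun i y => -(B.U y ^ (2 * gam n) * gr B.g B.F i y / gn B.g B.F y) := by
      funext i y
      simp only [e1, gr, gn, pd_const_sub, mul_neg, Finset.sum_neg_distrib, neg_div]
      norm_num
    rw [this, dv_neg]
    linarith
  obtain ⟨ε, hε, ε0⟩ := ((ev.filter_mono nhdsWithin_le_nhds).and
    (self_mem_nhdsWithin (s := Ioi 0))).exists
  obtain ⟨C, hC⟩ := gq_low hg (hS.w_sm hB) hσ (ε := ε) K2 fun x (hx : B.F x ≤ _) => by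
    have := hg.ip_nonneg (fun x => s' - B.F x) x
    have : 0 < s' - B.F x := by linarith [hS.s1]
    positivity
  obtain ⟨S, hSb⟩ := (isCompact_px M B.ρ).exists_bound_of_continuousOn hσ.cont.continuousOn
  have K0 : (0 : ℝ) < 2 ^ (2 * gam n) := by positivity
  refine ⟨|C| + B.h, fun T hT ρ' hρ' l => ?_⟩
  obtain ⟨δ, δ0, hδ⟩ := big_of (c := B.h / 4 / 2 ^ (2 * gam n)) (by positivity)
    (l + ε⁻¹ * (S - Real.log ρ'))
  refine ⟨δ, δ0, fun τ t f τ0 τ1 τ2 H x hx => ?_⟩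
  have hR : ∀ x, 0 < s' - B.F x → ‖px x‖ ≤ B.ρ := fun x k => (hB.near (by linarith [hS.s2])).le
  obtain ⟨y, y0, y1, y2⟩ := bar hg (hS.w_sm hB) (fun x => (hS.w_pos hB x).le) (CD.neg H.sm) hσ ε0
    hR (x₀ := x) (by linarith)
  have y3 := hR y y0
  have ρ1 := hB.one
  have big := hP.big
  rw [nf_neg, dv_neg, H.eqn y (by linarith), hP.q0 y (by linarith), sub_zero] at y2
  have k1 : -(B.h / 4) ≤ κ * m y := by nlinarith [hP.m01 y, hκ.1, hκ.2]
  have T0 : 0 ≤ T := by linarith [abs_nonneg C]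
  have k2 : τ * U y ^ (2 * gam n) * f y ≤ -(B.h / 4) := by
    rcases le_total (B.F y) (-(3 * B.s / 4)) with k | k
    · have := hC y k
      rw [hP.p4 y k] at y2
      linarith [le_abs_self C, abs_nonneg C]
    · have k3 := hε y (show |B.F y| ≤ B.s from abs_le.2 ⟨by linarith, by linarith [hS.s2]⟩)
      rw [gq_congr (w' := fun x => U x ^ (2 * gam n)) ((hσ.cont.continuousAt.eventually
        (lt_mem_nhds y0)).mono fun z hz => by
          simp only [hS.col z (by linarith)])] at k3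
      linarith [mul_nonneg T0 (hP.p04 y).1]
  have k3 : B.h / 4 / 2 ^ (2 * gam n) ≤ τ * -f y := by
    rw [div_le_iff₀ K0]
    have w0 := hS.w_pos hB y
    have w1 := hS.w_le hB y
    have : 0 ≤ τ * -f y := by nlinarith
    nlinarith
  have k4 := hδ τ (-t) (-f y) τ0 τ1 (by rwa [mul_neg, abs_neg]) k3
  have k5 : Real.log (s' - B.F y) ≤ S :=
    (Real.log_le_self y0.le).trans ((le_abs_self _).trans (hSb y y3))
  have k6 : Real.log ρ' ≤ Real.log (s' - B.F x) := Real.log_le_log hρ' (by linarith)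
  have k7 := mul_le_mul_of_nonneg_left (sub_le_sub k5 k6) (inv_pos.2 ε0).le
  linarith

/-- **the outer barrier** -/
theorem out (hB : B.Ok) (hP : Pen B L m p q) (hS : St B U a β R s') (κ : ℝ) :
    ∃ T₀ : ℝ, ∀ T ≥ T₀, ∀ l : ℝ, ∃ δ > (0 : ℝ),
      ∀ (τ t : ℝ) (f : M → ℝ), 0 < τ → τ ≤ δ → |τ * t| ≤ δ → Cq B L m p q U κ T τ f →
        ∀ x, L + 9 / 4 ≤ ‖px x‖ → ‖px x‖ ≤ L + 11 / 4 → l ≤ f x - t := by
  have hg := hB.met
  have ρ1 := hB.one
  have big := hP.big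
  obtain ⟨σ, eσ⟩ : ∃ σ : M → ℝ, σ = fun x =>
    (‖px x‖ ^ 2 - (L + 2) ^ 2) * ((L + 3) ^ 2 - ‖px x‖ ^ 2) := ⟨_, rfl⟩
  have hσ : Smooth σ := by
    rw [eσ]; exact (CD.sub contDiff_normSq cd_const).mul (cd_const.sub contDiff_normSq)
  have hR : ∀ x, 0 < σ x → L + 2 < ‖px x‖ ∧ ‖px x‖ < L + 3 := fun x k => by
    rw [eσ] at k
    rcases pos_and_pos_or_neg_and_neg_of_mul_pos k with k | k
    · exact ⟨lt_of_pow_lt_pow_left₀ 2 (norm_nonneg _) (by linarith [k.1]),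
        lt_of_pow_lt_pow_left₀ 2 (by linarith) (by linarith [k.2])⟩
    · nlinarith [k.1, k.2]
  have K1 : IsCompact {x : M | L + 2 ≤ ‖px x‖ ∧ ‖px x‖ ≤ L + 3} :=
    (isCompact_px M (L + 3)).of_isClosed_subset ((isClosed_le continuous_const cont_npx).inter
      (isClosed_le cont_npx continuous_const)) fun x hx => hx.2
  obtain ⟨C, hC⟩ := gq_low hg (hS.w_sm hB) hσ (ε := 1) K1 fun x hx => by
    have d := (contDiff_normSq (M := M)).diff x
    have x1 : B.ρ ≤ ‖px x‖ := by linarith [hx.1]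
    have e : ∀ i, pd i σ x = ((L + 2) ^ 2 + (L + 3) ^ 2 - 2 * ‖px x‖ ^ 2) *
        pd i (fun x : M => ‖px x‖ ^ 2) x := fun i => by
      rw [eσ, pd_mul (d.sub_const _) (d.const_sub _), pd_sub_const, pd_const_sub]; ring
    rw [ip_of_pd e e, hB.flat.ip_eq x1, ip_eu_normSq (hB.flat.far x1).le, eσ]
    have x2 : 1 ≤ ‖px x‖ ^ 2 := one_le_pow₀ (by linarith)
    by_cases k : (L + 2) ^ 2 + (L + 3) ^ 2 - 2 * ‖px x‖ ^ 2 = 0
    · have : 0 < (‖px x‖ ^ 2 - (L + 2) ^ 2) * ((L + 3) ^ 2 - ‖px x‖ ^ 2) :=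
        mul_pos (by nlinarith) (by nlinarith)
      rw [k]; positivity
    · have := mul_self_pos.2 k
      positivity
  have K0 : (0 : ℝ) < 2 ^ (2 * gam n) := by positivity
  refine ⟨|C| + 2 ^ (2 * gam n), fun T hT l => ?_⟩
  obtain ⟨δ, δ0, hδ⟩ := big_of one_pos (l + (L + 3) ^ 2 * (L + 3) ^ 2)
  refine ⟨δ, δ0, fun τ t f τ0 τ1 τ2 H x x1 x2 => ?_⟩
  have x3 : 1 ≤ σ x := by
    rw [eσ]
    exact one_le_mul_of_one_le_of_one_le (by nlinarith) (by nlinarith [norm_nonneg (px x)])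
  obtain ⟨y, y0, y1, y2⟩ := bar hg (hS.w_sm hB) (fun x => (hS.w_pos hB x).le) H.sm hσ one_pos
    (fun x k => (hR x k).2.le) (x₀ := x) (by linarith)
  obtain ⟨y3, y4⟩ := hR y y0
  rw [H.eqn y y4, hP.q4 y y3.le, hP.m0 y (by linarith), hP.p0 y (by
    linarith [hB.far y (by linarith), hB.s0])] at y2
  have k1 := hC y ⟨y3.le, y4.le⟩
  have k3 : 1 ≤ τ * f y := by
    have w0 := hS.w_pos hB y
    have w1 := hS.w_le hB y
    have k2 : 2 ^ (2 * gam n) ≤ U y ^ (2 * gam n) * (τ * f y) := by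
      linarith [le_abs_self C, abs_nonneg C]
    have : 0 ≤ τ * f y := by nlinarith
    nlinarith
  have k4 := hδ τ t (f y) τ0 τ1 τ2 k3
  have k5 : Real.log (σ y) ≤ (L + 3) ^ 2 * (L + 3) ^ 2 := by
    refine (Real.log_le_self y0.le).trans ?_
    have : ‖px y‖ ^ 2 ≤ (L + 3) ^ 2 := pow_le_pow_left₀ (norm_nonneg _) y4.le 2
    rw [eσ]
    exact mul_le_mul (by nlinarith) (by nlinarith) (by linarith) (by positivity)
  have k6 := Real.log_nonneg x3
  rw [inv_one, one_mul, one_mul] at y1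
  linarith

end Vale.Agent.P366M.G
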