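import Vale.Agent.P366Q.G.Sk

/-!
# P366Q, block O: the consequences of the capillary equation; definitions and statements
-/

open MeasureTheory Metric Filter Topology Set
open scoped ContDiff ENNReal
open Vale.Agent.P366 Vale.Agent.P366.Stmt Vale.Agent.P366Z

noncomputable section

namespace Vale.Agent.P366M.G

/-- the weighted normal field `ρ ∇ f / W` of the graph of `f` -/
def nf {n : ℕ} {M : Type} [Mf0 n M] (g : Fld n M) (ρ f : M → ℝ) (i : Fin n) (x : M) : ℝ :=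
  ρ x * gr g f i x / √(1 + ip g f f x)

variable {n : ℕ} {M : Type} [Mfe n M]

/-- a solution of the capillary equation on the ball of radius `L + 3` -/
structure Cq (B : Bg n M) (L : ℝ) (m p q U : M → ℝ) (κ T τ : ℝ) (f : M → ℝ) : Prop where
  sm : Smooth f
  eqn : ∀ x, ‖px x‖ < L + 3 → dv B.g (nf B.g (fun y => U y ^ (2 * gam n)) f) x =
    τ * U x ^ (2 * gam n) * f x + κ * m x + T * (p x - q x)

/-- the consequences for `u = f - t`; `ψ` is the near minimiser -/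
structure Mb (B : Bg n M) (L : ℝ) (m U : M → ℝ) (a s' κ ρ' r C₀ c l η : ℝ) (u ψ : M → ℝ) :
    Prop where
  near : Near B L m U κ η ψ
  thin : volume {x | 0 < ψ x ∧ ψ x < 1} ≤ ENNReal.ofReal η
  lt1 : ∀ x, ψ x < 1 → ‖px x‖ < 3 * r / 4 ∧ u x < 1
  col : ∀ x, B.F x ≤ s' - ρ' → u x ≤ -l
  conf : ∀ x, 3 * r / 4 ≤ ‖px x‖ → ‖px x‖ ≤ L + 11 / 4 → l ≤ u x
  fat : ∀ y : E n, B.ρ ≤ 3 * ‖y‖ / 4 → ‖y‖ ≤ L → (∀ z ∈ ball y (‖y‖ / 4), fe U z ≤ C₀ * a) →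
    fe u y ≤ l → Fat {z | fe ψ z = 0} c y η (‖y‖ / 4)

/-- **MBC**: the consequences of the capillary equation -/
def MBC : Prop := ∀ (n : ℕ) (M : Type) [Mfe n M] (C' : ℝ), ∃ c' > (0 : ℝ), c' ≤ 1 / 8 ∧
  ∀ C₀ : ℝ, ∃ c > (0 : ℝ), ∀ (B : Bg n M) L m p q U a β R s', B.Ok → Pen B L m p q →
    St B U a β R s' → ∀ κ ∈ Icc (-(B.h / 4)) 0, ∀ r, Cf B L U a κ C' c' r → ∃ T₀ : ℝ, ∀ T ≥ T₀,
      ∀ ρ' > (0 : ℝ), ∀ l : ℝ, ∀ η > (0 : ℝ), ∃ δ > (0 : ℝ), ∀ (τ t : ℝ) (f : M → ℝ), 0 < τ →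
        τ ≤ δ → |τ * t| ≤ δ → Cq B L m p q U κ T τ f →
        volume {x | ‖px x‖ < L + 3 ∧ |f x - t| ≤ δ⁻¹} ≤ ENNReal.ofReal δ →
        ∃ ψ, Mb B L m U a s' κ ρ' r C₀ c l η (fun x => f x - t) ψ

end Vale.Agent.P366M.G
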