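import Vale.Agent.P366Q.O.Near

/-!
# P366Q, block O: the density of the set `{ψ = 0}` in the end
-/

open MeasureTheory Metric Filter Topology Set
open scoped ContDiff ENNReal
open Vale.Agent.P366 Vale.Agent.P366.Stmt Vale.Agent.P366Z

noncomputable section

namespace Vale.Agent.P366M.G

variable {n : ℕ} {M : Type} [Mfe n M] {B : Bg n M} {L a β R s' κ T τ t δ Z : ℝ}
  {m p q U f v : M → ℝ} {x : M}

theorem norm_nf {g : Fld n M} {ρ : ℝ} (hg : Met g) (hf : Flat g ρ) (hx : ρ ≤ ‖px x‖) {w : M → ℝ}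
    (w0 : 0 ≤ w x) (f : M → ℝ) : ‖(WithLp.toLp 2 fun i => nf g w f i x : E n)‖ ≤ w x := by
  have h0 := one_ip hg f x
  refine le_of_sq_le_sq ?_ w0
  rw [EuclideanSpace.real_norm_sq_eq]
  have e : ∑ i, nf g w f i x ^ 2 = w x ^ 2 * (ip g f f x / (1 + ip g f f x)) := by
    conv_rhs => enter [2, 1]; rw [hf.ip_eq hx, ip_eu]
    rw [Finset.sum_div, Finset.mul_sum]
    refine Finset.sum_congr rfl fun i _ => ?_
    rw [nf, hf.gr_eq hx, div_pow, Real.sq_sqrt h0.le]; ring
  refine e.trans_le (mul_le_of_le_one_right (sq_nonneg _) ?_)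
  rw [div_le_one h0]; linarith

/-- **the density estimate** -/
theorem den (hn : 3 ≤ n) (M : Type) [Mfe n M] (C₀ : ℝ) : ∃ c > (0 : ℝ), ∀ (B : Bg n M) L m p q U a
    β R s', B.Ok → Pen B L m p q → St B U a β R s' → ∀ A > (0 : ℝ), ∃ δ₀ > (0 : ℝ),
      ∀ κ T τ t δ Z f v, δ ≤ δ₀ → Tq B L m p q U κ T τ t δ Z f v → ∀ (y : E n) (s l : ℝ), 0 < s →
        s ≤ A → l + s ≤ A → A ≤ Z → (∀ z ∈ ball y s, B.ρ < ‖z‖ ∧ fe U z ≤ C₀ * a) → fe v y ≤ l →
        c * s ^ n ≤ (volume (ball y s ∩ {z | fe (ps v) z = 0})).toReal + δ := by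
  set C := (2 * |C₀|) ^ (2 * gam n) + 1 with hC
  have C1 : 1 ≤ C := le_add_of_nonneg_left (by positivity)
  obtain ⟨c, c0, hc⟩ := OH.dgd (n := n) (by omega) C
  refine ⟨c, c0, fun B L m p q U a β R s' hB hP hS A A0 => ?_⟩
  have hg := hB.met
  have hf := hB.flat
  have γ0 : 0 ≤ 2 * gam n := by linarith [one_lt_gam hn]
  have a0 := hS.a0
  set K : ℝ := 2 ^ (2 * gam n) with hK
  have K0 : 0 < K := by positivity
  set a₁ := (a / 2) ^ (2 * gam n) with ha₁
  have a1 : 0 < a₁ := by positivity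
  refine ⟨a₁ / A / (K * (A + 1)), by positivity,
    fun κ T τ t δ Z f v hδ H y s l s0 sA lA AZ hb hy => ?_⟩
  set w := fun x => U x ^ (2 * gam n) with hw
  have cX := cv_nf hg (hS.w_sm hB) H.cq.sm
  have R1 := hf.R
  have cal : OH.Cal C a₁ s (l + s) (xfj Mfe.o 0 v)
      (fun z => WithLp.toLp 2 fun i => xfj Mfe.o 0 (nf B.g w f i) z) y := by
    refine ⟨(H.sm.xfj _ _).of_le one_le_oo, contDiff_euclidean.2 fun i =>
      cd_xt (by simp) (fun z hz => (cX.fj_at hz i).of_le one_le_oo) contDiff_const,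
      fun z hz hv => ?_⟩
    obtain ⟨z1, z2⟩ := hb z hz
    have z3 : R0 M + 1 / 2 < ‖z‖ := by linarith
    have z4 : px (ye Mfe.o z : M) = z := px_ye (by linarith)
    rw [xfj_eq z3.le] at hv
    have vZ : v (ye Mfe.o z) < Z := by linarith
    simp only [← pd_xfj z3, ← fd_xfj z3, xfj_eq z3.le]
    change U (ye Mfe.o z) ≤ _ at z2
    generalize (ye Mfe.o z : M) = x at *
    rw [← z4] at z1
    have w0 : 0 < w x := hS.w_pos hB x
    refine ⟨(norm_nf hg hf z1.le w0.le f).trans ?_, ?_, ?_⟩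
    · have k : U x ≤ 2 * |C₀| * (a / 2) := by
        linarith [mul_le_mul_of_nonneg_right (le_abs_self C₀) a0.le]
      have := Real.rpow_le_rpow (hS.pos hB x).le k γ0
      rw [Real.mul_rpow (by positivity) (by positivity)] at this
      exact this.trans (by rw [hC, add_mul, one_mul]; exact le_add_of_nonneg_right a1.le)
    · rw [fderiv_eq_sum (H.sm.diff x), ← gn_eu (H.sm.diff x), ← hf.gn_eq z1.le,
        gn_of_pd (s := 1) (u' := f) fun i => by rw [H.pd_eq vZ, one_mul], abs_one, one_mul]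
      simp only [H.pd_eq vZ, mul_comm (nf _ _ _ _ _), dot_nf]
      have k1 : 0 ≤ ip B.g f f x / √(1 + ip B.g f f x) := div_nonneg (hg.ip_nonneg f x) (by positivity)
      exact (mul_le_mul_of_nonneg_left (le_ip_div hg f x) a1.le).trans
        (mul_le_mul_of_nonneg_right (hS.le_w hB x) k1)
    · rw [← dv_eu (hf.far z1.le), ← hf.dv_eq z1, H.cq.eqn x (by linarith [H.lt vZ]),
        hP.p0 x (by linarith [hB.far x z1.le, hB.s0])]
      have k1 : τ * f x ≤ δ * (A + 1) := by
        have e := H.eq x (H.lt vZ).le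
        have := mul_le_mul_of_nonneg_left (show f x - t ≤ A by linarith) H.τ0.le
        have := mul_le_mul_of_nonneg_right H.τ1 A0.le
        linarith [(abs_le.1 H.τt).2]
      have δ0 := H.δ0
      have k2 : w x * (τ * f x) ≤ K * (δ * (A + 1)) :=
        (mul_le_mul_of_nonneg_left k1 w0.le).trans
          (mul_le_mul_of_nonneg_right (hS.w_le hB x) (by positivity))
      have k3 : K * (δ * (A + 1)) ≤ C * a₁ / s := by
        rw [le_div_iff₀ (by positivity)] at hδ
        calc _ = δ * (K * (A + 1)) := by ring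
          _ ≤ a₁ / A := hδ
          _ ≤ C * a₁ / s := by gcongr; exact le_mul_of_one_le_left a1.le C1
      have k4 := mul_nonpos_of_nonpos_of_nonneg H.κ0 (hP.m01 x).1
      have k5 := mul_nonneg H.T0 (hP.q04 x).1
      simp only [hw] at k2
      linarith
  have y1 := (hb y (mem_ball_self s0)).1
  refine (hc a₁ s l _ _ y a1 s0 cal (by rwa [xfj_eq (by linarith)])).trans ?_
  have mA := H.meas.inter (meas_le_px B.ρ)
  have k1 := vol_far (R := B.ρ) (by linarith) mA fun x hx => hx.2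
  have k2 := k1.trans_le ((measure_mono inter_subset_left).trans H.vol)
  have fin : volume (ball y s ∩ {z | fe (ps v) z = 0}) ≠ ⊤ :=
    ((measure_mono inter_subset_left).trans_lt measure_ball_lt_top).ne
  rw [← ENNReal.toReal_ofReal H.δ0.le, ← ENNReal.toReal_add fin ENNReal.ofReal_ne_top]
  refine ENNReal.toReal_mono (ENNReal.add_ne_top.2 ⟨fin, ENNReal.ofReal_ne_top⟩)
    (le_trans (measure_mono fun z hz => ?_) ((measure_union_le _ _).trans (add_le_add_right k2 _)))
  have z1 := (hb z hz.1).1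
  have z2 : xfj Mfe.o 0 v z < l + s := hz.2
  rw [xfj_eq (by linarith)] at z2
  rcases le_or_gt (v (ye Mfe.o z)) 0 with k | k
  · exact Or.inl ⟨hz.1, ps_zero k⟩
  · exact Or.inr ⟨z1.le, H.bad (abs_lt.2 ⟨by change _ < v (ye Mfe.o z); linarith,
      by change v (ye Mfe.o z) < _; linarith⟩), by
        change B.ρ ≤ ‖px (yp z : M)‖; rw [px_yp (by linarith)]; exact z1.le⟩

end Vale.Agent.P366M.G
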