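import Vale.Agent.P366Z.DensB

/-!
# P366Q, block O: the density estimate of De Giorgi with moving levels
-/

open MeasureTheory Metric Filter Topology Set
open scoped ContDiff ENNReal NNReal
open Vale.Agent.P366.Stmt Vale.Agent.P366Z Vale.Agent.P366Z.DensH

noncomputable section

namespace Vale.Agent.P366M.OH

variable {n : ℕ}

/-- the inequality of Sobolev for sets -/
theorem sob (hn : 2 ≤ n) : ∃ G > (0 : ℝ), ∀ (w : E n → ℝ) (A : Set (E n)) (Y : ℝ),
    ContDiff ℝ 1 w → HasCompactSupport w → MeasurableSet A → (∀ y ∈ A, w y = 1) →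
    ∫ y, ‖fderiv ℝ w y‖ ≤ Y → (volume A).toReal ^ (n - 1) ≤ (G * Y) ^ n := by
  obtain ⟨m, rfl⟩ : ∃ m, n = m + 1 := ⟨n - 1, by omega⟩
  have m0 : (0 : ℝ) < m := by exact_mod_cast (show 0 < m by omega)
  have hp : Real.HolderConjugate (Module.finrank ℝ (E (m + 1))) ((m + 1) / m) := by
    rw [finrank_euclideanSpace_fin, Real.holderConjugate_iff]
    push_cast
    exact ⟨by linarith, by field_simp; ring⟩
  obtain ⟨G, hG⟩ : ∃ G : ℝ≥0, G = lintegralPowLePowLIntegralFDerivConst
    (volume : Measure (E (m + 1))) ((m + 1) / m) := ⟨_, rfl⟩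
  refine ⟨G + 1, by positivity, fun w A Y f1 f2 hA h1A hY => ?_⟩
  have Y0 : 0 ≤ Y := (integral_nonneg fun _ => norm_nonneg _).trans hY
  have h1 := lintegral_pow_le_pow_lintegral_fderiv volume f1 f2 hp
  rw [← hG] at h1
  have h2 : volume A ≤ ∫⁻ y, ‖w y‖ₑ ^ ((m + 1 : ℝ) / m) := by
    rw [← lintegral_indicator_one hA]
    refine lintegral_mono fun y => ?_
    by_cases hy : y ∈ A
    · rw [indicator_of_mem hy, h1A y hy]
      simp
    · rw [indicator_of_notMem hy]
      exact zero_le
  have h3 : ∫⁻ y, ‖fderiv ℝ w y‖ₑ ≤ ENNReal.ofReal Y := by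
    have hi : Integrable (fderiv ℝ w) :=
      (f1.continuous_fderiv (by simp)).integrable_of_hasCompactSupport (f2.fderiv ℝ)
    rw [← ofReal_integral_norm_eq_lintegral_enorm hi]
    exact ENNReal.ofReal_le_ofReal hY
  have h4 := h2.trans (h1.trans (mul_le_mul_right (ENNReal.rpow_le_rpow h3 (by positivity)) _))
  rw [ENNReal.ofReal_rpow_of_nonneg (by positivity) (by positivity), ← ENNReal.ofReal_coe_nnreal,
    ← ENNReal.ofReal_mul (by positivity)] at h4
  have h5 := ENNReal.toReal_le_of_le_ofReal (by positivity) h4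
  rw [Nat.add_sub_cancel]
  refine (pow_le_pow_left₀ ENNReal.toReal_nonneg h5 m).trans ?_
  rw [mul_pow, ← Real.rpow_natCast (_ ^ _), ← Real.rpow_mul (by positivity),
    div_mul_cancel₀ _ m0.ne', mul_pow (G + 1 : ℝ)]
  have h6 : (G : ℝ) ^ m ≤ (G + 1) ^ (m + 1) :=
    (pow_le_pow_left₀ (by positivity) (by linarith) m).trans
      (pow_le_pow_right₀ (le_add_of_nonneg_left (by positivity)) (by omega))
  rw [← Nat.cast_add_one, Real.rpow_natCast]
  exact mul_le_mul_of_nonneg_right h6 (by positivity)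

/-- the one-sided calibration on the set `ball x s ∩ {u < z}` -/
structure Cal (C a s z : ℝ) (u : E n → ℝ) (X : E n → E n) (x : E n) : Prop where
  cu : ContDiff ℝ 1 u
  cX : ContDiff ℝ 1 X
  bd : ∀ y ∈ ball x s, u y < z → ‖X y‖ ≤ C * a ∧ a * (‖fderiv ℝ u y‖ - 1) ≤ fderiv ℝ u y (X y) ∧
    ∑ i, pd i (fun p => X p i) y ≤ C * a / s

theorem meas_lt {u : E n → ℝ} (hu : Continuous u) (x : E n) (r z : ℝ) :
    MeasurableSet (ball x r ∩ {y | u y < z}) :=
  measurableSet_ball.inter (isOpen_lt hu continuous_const).measurableSet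

theorem fin_lt (u : E n → ℝ) (x : E n) (r z : ℝ) : volume (ball x r ∩ {y | u y < z}) ≠ ⊤ :=
  ((measure_mono inter_subset_left).trans_lt measure_ball_lt_top).ne

/-- one step -/
theorem step (hn : 2 ≤ n) {C : ℝ} (hC : 0 ≤ C) : ∃ K > (0 : ℝ), ∀ (a s z₀ : ℝ) u X (x : E n),
    0 < a → Cal C a s z₀ u X x → ∀ r h z, 0 < r → 0 < h → r + h ≤ s → z + h ≤ z₀ →
    (volume (ball x r ∩ {y | u y < z})).toReal ^ (n - 1) ≤
      (K * ((volume (ball x (r + h) ∩ {y | u y < z + h})).toReal / h)) ^ n := by
  obtain ⟨G, G0, hG⟩ := sob hn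
  obtain ⟨L, L0, hL⟩ := deriv_bd
  refine ⟨G * ((2 + C) * L + C), by positivity, fun a s z₀ u X x ha H r h z hr hh hs hz => ?_⟩
  set σ := Real.smoothTransition with hσ
  have σ1 : ContDiff ℝ 1 σ := Real.smoothTransition.contDiff
  set A := ball x (r + h) ∩ {y | u y < z + h} with hA
  have mA : MeasurableSet A := meas_lt H.cu.continuous x _ _
  have c2 : ContDiff ℝ 1 fun y => σ ((z + h - u y) / h) :=
    σ1.comp ((contDiff_const.sub H.cu).div_const h)
  obtain ⟨w, hw⟩ : ∃ w : E n → ℝ, w = fun y => ct x h r y * σ ((z + h - u y) / h) := ⟨_, rfl⟩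
  have w1 : ContDiff ℝ 1 w := by rw [hw]; exact (ct_c1 hh hr).mul c2
  have w01 : ∀ y, 0 ≤ w y ∧ w y ≤ 1 := fun y => by
    rw [hw]
    exact ⟨mul_nonneg (Real.smoothTransition.nonneg _) (Real.smoothTransition.nonneg _),
      mul_le_one₀ (Real.smoothTransition.le_one _) (Real.smoothTransition.nonneg _)
        (Real.smoothTransition.le_one _)⟩
  have w0 : ∀ y ∉ A, w y = 0 := fun y hy => by
    rw [hw]
    rcases not_and_or.1 hy with k | k
    · rw [mem_ball, dist_eq_norm, not_lt] at k
      simp only [ct_zero hh k, zero_mul]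
    · have k' : z + h ≤ u y := not_lt.1 k
      have : σ ((z + h - u y) / h) = 0 := Real.smoothTransition.zero_of_nonpos
        (div_nonpos_of_nonpos_of_nonneg (by linarith) hh.le)
      simp only [this, mul_zero]
  have w2 : HasCompactSupport w := HasCompactSupport.intro (isCompact_closedBall x (r + h))
    fun y hy => w0 y fun k => hy (ball_subset_closedBall k.1)
  have cX : ∀ i, ContDiff ℝ 1 fun p => X p i := fun i => (contDiff_coord i).comp H.cX
  have pt : ∀ y, a * ‖fderiv ℝ w y‖ ≤
      A.indicator (fun _ => (2 + C) * L * a / h) y - ∑ i, pd i w y * X y i := fun y => by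
    have dw := w1.differentiable one_ne_zero y
    have e1 : ∑ i, pd i w y * X y i = fderiv ℝ w y (X y) := by
      rw [fderiv_eq_sum dw]; exact Finset.sum_congr rfl fun i _ => mul_comm _ _
    rw [e1]
    by_cases hy : y ∈ A
    swap
    · rw [fderiv_zero w01 (Or.inl (w0 y hy)), indicator_of_notMem hy]; simp
    rw [indicator_of_mem hy]
    obtain ⟨b1, b2, -⟩ := H.bd y (ball_subset_ball hs hy.1) (lt_of_lt_of_le hy.2 hz)
    have du := (H.cu.differentiable one_ne_zero y).hasFDerivAt
    have dc := ((ct_c1 (x := x) hh hr).differentiable one_ne_zero y).hasFDerivAt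
    set t := (z + h - u y) / h
    have d1 : HasFDerivAt (fun y => σ ((z + h - u y) / h))
        (deriv σ t • ((h⁻¹ : ℝ) • -fderiv ℝ u y)) y := by
      refine HasDerivAt.comp_hasFDerivAt y (h₂ := σ) (f := fun y => (z + h - u y) / h)
        (σ1.differentiable one_ne_zero t).hasDerivAt ?_
      simpa only [div_eq_inv_mul] using (du.const_sub (z + h)).const_mul h⁻¹
    have d2 : fderiv ℝ w y = ct x h r y • (deriv σ t • ((h⁻¹ : ℝ) • -fderiv ℝ u y)) +
        σ t • fderiv ℝ (ct x h r) y := by rw [hw]; exact (dc.fun_mul d1).fderiv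
    have s0 : 0 ≤ deriv σ t := Real.smoothTransition.monotone.deriv_nonneg
    have s1 : deriv σ t ≤ L := (le_abs_self _).trans (hL t)
    have c0 : 0 ≤ ct x h r y := Real.smoothTransition.nonneg _
    have c1 : ct x h r y ≤ 1 := Real.smoothTransition.le_one _
    have t0 : 0 ≤ σ t := Real.smoothTransition.nonneg _
    have t1 : σ t ≤ 1 := Real.smoothTransition.le_one _
    have b3 := ct_fderiv (x := x) (y := y) (r := r) L0 hL hh
    set k := ct x h r y * deriv σ t * h⁻¹ with hk
    have k0 : 0 ≤ k := by positivity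
    have k1 : k ≤ L / h := by
      rw [hk, div_eq_mul_inv]
      exact mul_le_mul_of_nonneg_right (by nlinarith) (by positivity)
    have n1 : ‖fderiv ℝ w y‖ ≤ k * ‖fderiv ℝ u y‖ + L / h := by
      rw [d2]
      refine (norm_add_le _ _).trans (add_le_add (le_of_eq ?_) ?_)
      · rw [norm_smul, norm_smul, norm_smul, norm_neg, Real.norm_of_nonneg c0,
          Real.norm_of_nonneg s0, Real.norm_of_nonneg (by positivity), hk]; ring
      · rw [norm_smul, Real.norm_of_nonneg t0]
        exact (mul_le_of_le_one_left (norm_nonneg _) t1).trans b3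
    have n2 : fderiv ℝ w y (X y) = -(k * fderiv ℝ u y (X y)) + σ t * fderiv ℝ (ct x h r) y (X y) := by
      rw [d2, hk]; simp; ring
    have n3 : σ t * fderiv ℝ (ct x h r) y (X y) ≤ L / h * (C * a) := by
      have := (le_abs_self _).trans ((fderiv ℝ (ct x h r) y).le_opNorm (X y))
      have h2 : ‖fderiv ℝ (ct x h r) y‖ * ‖X y‖ ≤ L / h * (C * a) :=
        mul_le_mul b3 b1 (norm_nonneg _) (by positivity)
      by_cases h3 : 0 ≤ fderiv ℝ (ct x h r) y (X y)
      · nlinarith
      · exact (mul_nonpos_of_nonneg_of_nonpos t0 (not_le.1 h3).le).trans (by positivity)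
    have n4 := mul_le_mul_of_nonneg_left b2 k0
    have n5 := mul_le_mul_of_nonneg_left n1 ha.le
    have n6 := mul_le_mul_of_nonneg_left k1 ha.le
    rw [n2, show (2 + C) * L * a / h = 2 * (a * (L / h)) + L / h * (C * a) by ring]
    nlinarith
  have i1 : Integrable fun y => w y * ∑ i, pd i (fun p => X p i) y :=
    (w1.continuous.mul (continuous_finsetSum _ fun i _ => (contDiff_pd (k := 0) (cX i)
      (by norm_num) i).continuous)).integrable_of_hasCompactSupport w2.mul_right
  have i2 : Integrable fun y => ∑ i, pd i w y * X y i := by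
    refine (continuous_finsetSum _ fun i _ => (contDiff_pd (k := 0) w1 (by norm_num)
      i).continuous.mul (cX i).continuous).integrable_of_hasCompactSupport ?_
    refine HasCompactSupport.intro (isCompact_closedBall x (r + h)) fun y hy => ?_
    refine Finset.sum_eq_zero fun i _ => ?_
    show pd i w y * X y i = 0
    rw [pd_eq (w1.differentiable one_ne_zero y),
      fderiv_zero w01 (Or.inl (w0 y fun k => hy (ball_subset_closedBall k.1)))]
    simp
  have i3 : ∀ c : ℝ, Integrable (A.indicator fun _ => c) := fun c =>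
    (integrable_indicator_iff mA).2 (integrableOn_const (fin_lt u x _ _))
  have ib := met_eu.ibp_dv (lip_of_supp w1 w2) w2 cX
  simp only [dv_eu, dens_eu, mul_one] at ib
  have j1 : ∫ y, w y * ∑ i, pd i (fun p => X p i) y ≤ ∫ y, A.indicator (fun _ => C * a / h) y := by
    refine integral_mono i1 (i3 _) fun y => ?_
    by_cases hy : y ∈ A
    · obtain ⟨-, -, b3⟩ := H.bd y (ball_subset_ball hs hy.1) (lt_of_lt_of_le hy.2 hz)
      have b4 : C * a / s ≤ C * a / h :=
        div_le_div_of_nonneg_left (by positivity) hh (by linarith)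
      rw [indicator_of_mem hy]
      by_cases b5 : 0 ≤ ∑ i, pd i (fun p => X p i) y
      · exact (mul_le_of_le_one_left b5 (w01 y).2).trans (b3.trans b4)
      · exact (mul_nonpos_of_nonneg_of_nonpos (w01 y).1 (not_le.1 b5).le).trans (by positivity)
    · simp [indicator_of_notMem hy, w0 y hy]
  have j2 : ∫ y, a * ‖fderiv ℝ w y‖ ≤
      ∫ y, (A.indicator (fun _ => (2 + C) * L * a / h) y - ∑ i, pd i w y * X y i) :=
    integral_mono (((w1.continuous_fderiv (by simp)).integrable_of_hasCompactSupport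
      (w2.fderiv ℝ)).norm.const_mul a) ((i3 _).sub i2) pt
  rw [integral_sub (i3 _) i2, integral_const_mul, integral_indicator_const _ mA, smul_eq_mul] at j2
  rw [integral_indicator_const _ mA, smul_eq_mul] at j1
  have j3 : ∫ y, ‖fderiv ℝ w y‖ ≤ ((2 + C) * L + C) * ((volume A).toReal / h) := by
    refine le_of_mul_le_mul_left ?_ ha
    have : volume.real A * ((2 + C) * L * a / h) + volume.real A * (C * a / h) =
        a * (((2 + C) * L + C) * ((volume A).toReal / h)) := by rw [measureReal_def]; ring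
    linarith
  rw [mul_assoc]
  refine hG w _ _ w1 w2 (meas_lt H.cu.continuous x r z) (fun y hy => ?_) j3
  have k1 : u y < z := hy.2
  rw [hw]
  show ct x h r y * σ ((z + h - u y) / h) = 1
  rw [ct_one hh (by rw [← dist_eq_norm]; exact le_of_lt hy.1), one_mul]
  exact Real.smoothTransition.one_of_one_le (by rw [le_div_iff₀ hh]; linarith)

/-- **the density estimate** -/
theorem dgd (hn : 2 ≤ n) (C : ℝ) : ∃ c > (0 : ℝ), ∀ (a s l : ℝ) u X (x : E n), 0 < a → 0 < s →
    Cal C a s (l + s) u X x → u x ≤ l →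
    c * s ^ n ≤ (volume (ball x s ∩ {y | u y < l + s})).toReal := by
  by_cases hC : 0 ≤ C
  swap
  · refine ⟨1, one_pos, fun a s l u X x ha hs H hx => ?_⟩
    have := (H.bd x (mem_ball_self hs) (by linarith)).1
    nlinarith [norm_nonneg (X x), mul_neg_of_neg_of_pos (not_le.1 hC) ha]
  obtain ⟨K, K0, hK⟩ := step hn hC
  obtain ⟨m, rfl⟩ : ∃ m, n = m + 1 := ⟨n - 1, by omega⟩
  have hm : m ≠ 0 := by omega
  set θ : ℝ := (1 / 2) ^ (m + 1) with hθ
  have θ0 : 0 < θ := by positivity
  have θ1 : θ < 1 := pow_lt_one₀ (by norm_num) (by norm_num) (by omega)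
  set c := θ ^ m / (4 * K) ^ (m + 1) with hc
  have c0 : 0 < c := by positivity
  refine ⟨c, c0, fun a s l u X x ha hs H hx => le_of_not_gt fun hlt => ?_⟩
  have key : ∀ j : ℕ, (volume (ball x (s / 2 + s / 2 ^ (j + 1)) ∩
      {y | u y < l + (s / 2 + s / 2 ^ (j + 1))})).toReal ≤ c * s ^ (m + 1) * θ ^ j := by
    intro j
    induction j with
    | zero => simpa using hlt.le
    | succ j ih =>
      have e : s / 2 + s / 2 ^ (j + 1 + 1) + s / 2 ^ (j + 1 + 1) = s / 2 + s / 2 ^ (j + 1) := by
        rw [pow_succ 2 (j + 1)]; field_simp; ring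
      have le : s / 2 ^ (j + 1) ≤ s / 2 := div_le_div_of_nonneg_left hs.le two_pos
        (by rw [pow_succ]; exact le_mul_of_one_le_left two_pos.le (one_le_pow₀ one_le_two))
      have h1 := hK a s (l + s) u X x ha H (s / 2 + s / 2 ^ (j + 1 + 1)) (s / 2 ^ (j + 1 + 1))
        (l + (s / 2 + s / 2 ^ (j + 1 + 1))) (by positivity) (by positivity) (by linarith)
        (by linarith)
      rw [add_assoc l, e, Nat.add_sub_cancel] at h1
      refine (pow_le_pow_iff_left₀ ENNReal.toReal_nonneg (by positivity) hm).1 (h1.trans ?_)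
      refine (pow_le_pow_left₀ (by positivity) (mul_le_mul_of_nonneg_left
        (div_le_div_of_nonneg_right ih (by positivity)) K0.le) _).trans (le_of_eq ?_)
      have e1 : K * (c * s ^ (m + 1) * θ ^ j / (s / 2 ^ (j + 1 + 1))) =
          (4 * K) * c * s ^ m * (2 * θ) ^ j := by field_simp; ring
      have e2 : (2 * θ) ^ (m + 1) = θ ^ m := by
        rw [mul_pow, pow_succ θ, hθ, mul_left_comm, ← mul_pow]; norm_num
      have e3 : (4 * K) ^ (m + 1) * c = θ ^ m := by rw [hc]; field_simp
      rw [e1, mul_pow, mul_pow, mul_pow, pow_right_comm (2 * θ), e2, pow_succ' c, ← mul_assoc, e3,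
        mul_pow, mul_pow, pow_right_comm s m, pow_succ θ j, mul_pow, pow_right_comm θ j]
      ring
  have pos : 0 < (volume (ball x (s / 2) ∩ {y | u y < l + s / 2})).toReal :=
    ENNReal.toReal_pos ((isOpen_ball.inter (isOpen_lt H.cu.continuous continuous_const)).measure_pos
      volume ⟨x, mem_ball_self (by positivity), by show u x < _; linarith⟩).ne' (fin_lt u x _ _)
  have lim : Tendsto (fun j : ℕ => c * s ^ (m + 1) * θ ^ j) atTop (𝓝 (c * s ^ (m + 1) * 0)) :=
    (tendsto_pow_atTop_nhds_zero_of_lt_one θ0.le θ1).const_mul _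
  rw [mul_zero] at lim
  refine pos.not_ge (ge_of_tendsto' lim fun j => le_trans ?_ (key j))
  have p : 0 < s / 2 ^ (j + 1) := by positivity
  exact ENNReal.toReal_mono (fin_lt u x _ _) (measure_mono (inter_subset_inter
    (ball_subset_ball (by linarith)) fun y (hy : u y < _) => by show u y < _; linarith))

end Vale.Agent.P366M.OH
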