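import Vale.Agent.P366Q.O.Vis
import Vale.Agent.P366Q.G.Int

/-!
# P366Q, block O: the limit of capillary graphs on a manifold
-/

open MeasureTheory Metric Filter Topology Set
open scoped ContDiff ENNReal
open Vale.Agent.P366 hiding E omega
open Vale.Agent.P366.Stmt Vale.Agent.P366Z
open Vale.Agent.P366M.Y.C Vale.Agent.P366M.Y.C.GbH

noncomputable section

namespace Vale.Agent.P366M.G

/-- a level with a thin slab -/
theorem pigeon1 {X : Type} [MeasurableSpace X] {μ : Measure X} {A : Set X} (hA : MeasurableSet A)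
    (hμ : μ A < ⊤) {δ : ℝ} (hδ : 0 < δ) : ∃ T ≥ (0 : ℝ), ∀ f : X → ℝ, Measurable f →
      ∃ t, |t| ≤ T ∧ μ {x | x ∈ A ∧ |f x - t| ≤ δ⁻¹} ≤ ENNReal.ofReal δ := by
  obtain ⟨N, hN⟩ := exists_nat_gt ((μ A).toReal / δ)
  have d0 : 0 < δ⁻¹ := inv_pos.2 hδ
  refine ⟨N * (3 * δ⁻¹), by positivity, fun f hf => by_contra fun h => ?_⟩
  push Not at h
  have h1 : ∑ k ∈ Finset.range N, ENNReal.ofReal δ ≤
      ∑ k ∈ Finset.range N, μ {x | x ∈ A ∧ |f x - k * (3 * δ⁻¹)| ≤ δ⁻¹} :=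
    Finset.sum_le_sum fun k hk => (h _ (by
      rw [abs_of_nonneg (by positivity)]
      gcongr
      exact (Finset.mem_range.1 hk).le)).le
  rw [← measure_biUnion_finset (f := fun k : ℕ => {x | x ∈ A ∧ |f x - k * (3 * δ⁻¹)| ≤ δ⁻¹})
    (fun k _ k' _ e => disjoint_left.2 fun x a b => ?_)
    fun k _ => hA.inter (measurableSet_le (hf.sub_const _).abs measurable_const),
    Finset.sum_const, Finset.card_range, nsmul_eq_mul, ← ENNReal.ofReal_natCast,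
    ← ENNReal.ofReal_mul N.cast_nonneg] at h1
  · have h2 := h1.trans (measure_mono (iUnion₂_subset fun k _ x hx => hx.1))
    rw [ENNReal.ofReal_le_iff_le_toReal hμ.ne] at h2
    rw [div_lt_iff₀ hδ] at hN
    linarith
  · have a1 := abs_le.1 a.2
    have b1 := abs_le.1 b.2
    rcases lt_or_gt_of_ne e with l | l
    · have : (k : ℝ) + 1 ≤ k' := by exact_mod_cast l
      nlinarith
    · have : (k' : ℝ) + 1 ≤ k := by exact_mod_cast l
      nlinarith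

section L0

variable {n : ℕ} {M : Type} [Mf0 n M] {g : Fld n M} {ρ k v φ : M → ℝ} {x : M} {e : Ch n M}
  {y : E n} {l : Filter ℕ} {u : ℕ → M → ℝ} {c ε : ℕ → ℝ} {O : Set M}

theorem Sp.loc (he : e ∈ At M) : y ∈ Sp l (fun i => loc e (u i)) ↔ e.symm y ∈ Sp l u := by
  rw [Sp, Sp, mem_ofPred_eq, mem_ofPred_eq, ← map_symm he, prod_map_right, eventually_map]
  rfl

theorem nf_neg1 (g : Fld n M) (ρ v : M → ℝ) :
    nf g ρ (fun y => -v y) = fun i y => -nf g ρ v i y := by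
  funext i y
  have p : ∀ j, pd j (fun y => -v y) y = -1 * pd j v y := fun j => by rw [pd_neg]; ring
  rw [nf, nf, ip_of_pd p p]
  simp only [gr, p, mul_left_comm _ (-1 : ℝ), ← Finset.mul_sum]
  ring_nf

theorem hw_log (hg : Met g) (hρ : Smooth ρ) (ρ0 : ∀ y, 0 < ρ y) (hv : Smooth v) (x : M) :
    Gr.hw g (fun y => Real.log (ρ y)) v x = dv g (nf g ρ v) x / ρ x := by
  have e : nf g ρ v = fun i y => ρ y * Gr.nv g v i y := by
    funext i y
    simp only [nf, Gr.nv, ww, Pi.one_apply, one_pow, one_mul, mul_div_assoc]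
  rw [e, hg.dv_smul (hρ.diff x) ((Gr.cv_nv hg hv).dv (by simp) x), ← Gr.dn_eq hg, Gr.hw, Gr.dn,
    Gr.dn, ip_comp_right (Real.hasDerivAt_log (ρ0 x).ne') (hρ.diff x)]
  have := (ρ0 x).ne'
  field_simp

/-- a sequence of solutions of capillary equations -/
structure Sq (g : Fld n M) (ρ k : M → ℝ) (O : Set M) (l : Filter ℕ) (u : ℕ → M → ℝ)
    (c ε : ℕ → ℝ) : Prop where
  met : Met g
  smρ : Smooth ρ
  ρ0 : ∀ x, 0 < ρ x
  smk : Smooth k
  opn : IsOpen O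
  smu : ∀ i, Smooth (u i)
  c0 : Tendsto c l (𝓝 0)
  ε0 : Tendsto ε l (𝓝 0)
  nn : ∀ i, 0 ≤ ε i
  eqn : ∀ i, ∀ x ∈ O, dv g (nf g ρ (u i)) x = k x + ρ x * (c i + ε i * u i x)

theorem Sq.neg (h : Sq g ρ k O l u c ε) :
    Sq g ρ (fun y => -k y) O l (fun i y => -u i y) (fun i => -c i) ε :=
  { h with
    smk := h.smk.neg
    smu := fun i => (h.smu i).neg
    c0 := by simpa using h.c0.neg
    eqn := fun i x hx => by rw [nf_neg1, dv_neg, h.eqn i x hx]; ring }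

theorem Sq.le [l.NeBot] (h : Sq g ρ k O l u c ε) (hx : x ∈ O) (hφ : Smooth φ) (d : gn g φ x ≠ 0)
    (φ0 : φ x = 0)
    (s : ∀ᶠ y in 𝓝 x, (0 < φ y → y ∈ Sp l u) ∧ (φ y < 0 → y ∈ Sp l fun i y => -u i y)) :
    dv g (fun i y => ρ y * gr g φ i y / gn g φ y) x ≤ k x := by
  refine vis n M g ρ k φ l u (fun i => (ρ x + 1) * (|c i| + ε i)) x ‹_› h.met h.smρ h.ρ0
    h.smk.cont.continuousAt hφ d φ0 (by simpa using (h.c0.abs.add h.ε0).const_mul (ρ x + 1))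
    h.smu s ?_
  filter_upwards [tendsto_snd.eventually ((h.smρ.cont.continuousAt.eventually
    (gt_mem_nhds (lt_add_one (ρ x)))).and (h.opn.mem_nhds hx))] with p hp h1
  rw [h.eqn _ _ hp.2]
  have a := mul_le_mul_of_nonneg_left h1 (h.nn p.1)
  have b : c p.1 + ε p.1 * u p.1 p.2 ≤ |c p.1| + ε p.1 := by linarith [le_abs_self (c p.1)]
  have := h.nn p.1
  exact add_le_add_right ((mul_le_mul_of_nonneg_left b (h.ρ0 _).le).trans
    (mul_le_mul_of_nonneg_right hp.1.le (by positivity))) _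

/-- near `x` the limit is a hypersurface of weighted mean curvature `k` -/
def Rs (g : Fld n M) (ρ k : M → ℝ) (l : Filter ℕ) (u : ℕ → M → ℝ) (x : M) : Prop :=
  ∃ φ : M → ℝ, Smooth φ ∧ gn g φ x ≠ 0 ∧ ∀ᶠ y in 𝓝 x, (y ∈ Sp l u ↔ 0 < φ y) ∧
    (y ∈ Sp l (fun i y => -u i y) ↔ φ y < 0) ∧
    (φ y = 0 → dv g (fun i y => ρ y * gr g φ i y / gn g φ y) y = k y)

theorem not_side [l.NeBot] (hφ : Smooth φ) (d : gn g φ x ≠ 0) (φ0 : φ x ≤ 0)
    (s : ∀ᶠ y in 𝓝 x, φ y < 0 → y ∈ Sp l fun i y => -u i y) : x ∉ Sp l u := fun k => by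
  refine d (gn_zero (Vs.pd_min (hφ.diff x) ?_))
  filter_upwards [s, (Sp.opn l u).mem_nhds k] with y a b
  exact φ0.trans (not_lt.1 fun t => Sp.dj b (a t))

theorem Sq.rs [l.NeBot] (h : Sq g ρ k O l u c ε) (hx : x ∈ O) (hφ : Smooth φ) (d : gn g φ x ≠ 0)
    (s : ∀ᶠ y in 𝓝 x, (0 < φ y → y ∈ Sp l u) ∧ (φ y < 0 → y ∈ Sp l fun i y => -u i y)) :
    Rs g ρ k l u x := by
  refine ⟨φ, hφ, d, ?_⟩
  filter_upwards [s.eventually_nhds, h.opn.mem_nhds hx,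
    (h.met.cont_gn hφ.one).continuousAt.eventually_ne d] with y a b d'
  have p : ∀ z j, pd j (fun y => -φ y) z = -1 * pd j φ z := fun z j => by rw [pd_neg]; ring
  have q : ∀ z, gn g (fun y => -φ y) z = gn g φ z := fun z => by rw [gn_of_pd (p z)]; simp
  have a' : ∀ᶠ z in 𝓝 y, (0 < -φ z → z ∈ Sp l fun i y => -u i y) ∧
      (-φ z < 0 → z ∈ Sp l fun i y => - -u i y) := a.mono fun z t =>
    ⟨fun r => t.2 (neg_pos.1 r), fun r => by simpa only [neg_neg] using t.1 (neg_lt_zero.1 r)⟩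
  refine ⟨⟨fun r => not_le.1 fun t => not_side hφ d' t (a.mono fun _ => And.right) r,
    a.self_of_nhds.1⟩, ⟨fun r => not_le.1 fun t => not_side (g := g) hφ.neg (by rwa [q])
      (neg_nonpos.2 t) (a'.mono fun _ => And.right) r, a.self_of_nhds.2⟩,
    fun t => le_antisymm (h.le b hφ d' t a) ?_⟩
  have := h.neg.le b hφ.neg (by rwa [q]) (by simp [t]) a'
  simp only [q, gr, p, neg_one_mul, mul_neg, Finset.sum_neg_distrib, neg_div] at this
  rw [dv_neg] at this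
  exact neg_le_neg_iff.1 this

theorem Sq.rs_loc [l.NeBot] (h : Sq g ρ k O l u c ε) (he : e ∈ At M) (hy : e.symm y ∈ O)
    {w : E n → ℝ} (hw : Stmt.Smooth w) (d : fderiv ℝ w y ≠ 0)
    (s : ∀ᶠ z in 𝓝 y, (0 < w z → z ∈ Sp l fun i => loc e (u i)) ∧
      (w z < 0 → z ∈ Sp l fun i y => -loc e (u i) y)) : Rs g ρ k l u (e.symm y) := by
  let b : ContDiffBump y := ⟨1, 2, one_pos, one_lt_two⟩
  have s1 : Smooth (zx e fun z => b z * w z) := cd_zx le_rfl he (isCompact_closedBall y 2)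
    (fun z hz => by rw [b.zero_of_le_dist (not_le.1 hz).le, zero_mul]) (b.contDiff.mul hw)
  have s2 : (fun z => b z * w z) =ᶠ[𝓝 y] w := by
    filter_upwards [closedBall_mem_nhds y one_pos] with z hz
    rw [b.one_of_mem_closedBall hz, one_mul]
  refine h.rs hy s1 ?_ ((ev_iff he).2 ?_)
  · rw [← gn_rep he g (s1.diff _), loc_zx he, P366Z.gn_congr s2]
    refine (Real.sqrt_pos.2 ((h.met.rep he).up_pos y (ξ := fun j => Stmt.pd j w y)
      fun t => d (ContinuousLinearMap.ext fun ξ => ?_))).ne'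
    rw [P366Z.fderiv_eq_sum (hw.diff y)]
    simp [show ∀ j, Stmt.pd j w y = 0 from congrFun t]
  · filter_upwards [s, s2] with z a t
    rw [zx_symm he, t]
    exact ⟨fun r => (Sp.loc he).1 (a.1 r), fun r => (Sp.loc he).1 (a.2 r)⟩

end L0

theorem vol_loc {n : ℕ} {M : Type} [Mf n M] {e : Ch n M} (he : e ∈ At M) (R : ℝ) :
    ∃ C : ℝ≥0∞, C ≠ ⊤ ∧ ∀ A : Set M, MeasurableSet A →
      volume (e.symm ⁻¹' A ∩ ball 0 R) ≤ C * volume A := by
  obtain ⟨m, m0, m1⟩ := (isCompact_closedBall (0 : E n) R).exists_forall_le'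
    (bg_met.rep he).sm_dens.cont.continuousOn (a := 0) fun y _ => (bg_met.rep he).dens_pos y
  have m2 : ENNReal.ofReal m ≠ 0 := (ENNReal.ofReal_pos.2 m0).ne'
  refine ⟨(ENNReal.ofReal m)⁻¹, ENNReal.inv_ne_top.2 m2, fun A hA => ?_⟩
  have hB := ((measEmb_symm he).measurable hA).inter (measurableSet_ball (x := 0) (ε := R))
  rw [← ENNReal.mul_le_iff_le_inv m2 ENNReal.ofReal_ne_top, ← setLIntegral_const]
  refine le_trans (setLIntegral_mono' hB fun y hy => ENNReal.ofReal_le_ofReal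
    (m1 y (ball_subset_closedBall hy.2))) ?_
  rw [← vol_image bg_met he hB]
  exact measure_mono (by rintro _ ⟨y, hy, rfl⟩; exact hy.1)

/-- the singular set is small -/
theorem Sq.null (hC : CRG) {n : ℕ} {M : Type} [Mf n M] {g : Fld n M} {ρ k : M → ℝ} {O S : Set M}
    {𝒰 : Ultrafilter ℕ} {u : ℕ → M → ℝ} {c ε : ℕ → ℝ} {Λ : ℝ} (hn : 3 ≤ n)
    (h : Sq g ρ k O 𝒰 u c ε) (hΛ : ∀ i, ∀ x ∈ O, |ε i * u i x| ≤ Λ)
    (hv : ∀ s : ℝ, Tendsto (fun i => volume {x | x ∈ O ∧ |u i x| ≤ s}) 𝒰 (𝓝 0))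
    (hS : IsClosed S) (hO : S ⊆ O) (hr : ∀ x ∈ S, x ∉ Sp 𝒰 u ∧ x ∉ Sp 𝒰 (fun i y => -u i y) ∧
      ¬Rs g ρ k 𝒰 u x) {e : Ch n M} (he : e ∈ At M) :
    P366D.Null ((n : ℝ) - 4) (e.symm ⁻¹' S) := by
  obtain ⟨j, rfl⟩ : ∃ j, n = j + 1 := ⟨n - 1, by omega⟩
  intro K hK δ hδ
  obtain ⟨R, hR⟩ := hK.isBounded.subset_ball 0
  obtain ⟨C, C0, C1⟩ := vol_loc he R
  have sl : Smooth fun y => Real.log (ρ y) := h.smρ.log fun y => (h.ρ0 y).ne'
  obtain ⟨s, s1, s2, s3⟩ := hC j (rep e g) _ (loc e fun y => k y / ρ y)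
    (e.symm ⁻¹' O ∩ ball 0 R) 𝒰 (fun i => loc e (u i)) c ε Λ (by omega) (h.met.rep he)
    (sl.lc he) (Smooth.lc (h.smk.div h.smρ fun y => (h.ρ0 y).ne') he)
    ((h.opn.preimage (cont_symm he)).inter isOpen_ball) (fun i => (h.smu i).lc he) h.c0 h.ε0 h.nn
    (fun i y hy => ⟨by
      rw [← Gr.loc_hw h.met he sl (h.smu i), loc_apply, hw_log h.met h.smρ h.ρ0 (h.smu i),
        h.eqn i _ hy.1, loc_apply, loc_apply]
      have := (h.ρ0 (e.symm y)).ne'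
      field_simp
      ring, hΛ i _ hy.1⟩)
    (fun t => tendsto_of_tendsto_of_tendsto_of_le_of_le tendsto_const_nhds
      (mul_zero C ▸ ENNReal.Tendsto.const_mul (hv t) (Or.inr C0)) (fun _ => zero_le)
      fun i => le_trans (measure_mono fun y hy => mem_inter (And.intro hy.1.1 hy.2) hy.1.2)
        (C1 {x | x ∈ O ∧ |u i x| ≤ t} (h.opn.measurableSet.inter
          (isClosed_le (h.smu i).cont.abs continuous_const).measurableSet)))
    (e.symm ⁻¹' S ∩ K) (hK.inter_left (hS.preimage (cont_symm he)))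
    (fun y hy => ⟨hO hy.1, hR hy.2⟩) K hK δ hδ
  refine ⟨s, s1, fun y hy => s2 ⟨⟨hy, ?_⟩, hy.2⟩, ?_⟩
  · obtain ⟨r1, r2, r3⟩ := hr _ hy.1
    rintro (t | t | ⟨w, t1, t2, t3⟩)
    exacts [r1 ((Sp.loc he).1 t), r2 ((Sp.loc he).1 t), r3 (h.rs_loc he (hO hy.1) t1 t2 t3)]
  · rwa [show ((j + 1 : ℕ) : ℝ) - 4 = j - 3 by push_cast; ring]

end Vale.Agent.P366M.G
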