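import Vale.Agent.P366Q.O.Mb1

/-!
# P366Q, block O: the minimising boundary
-/

open MeasureTheory Metric Filter Topology Set
open scoped ContDiff ENNReal
open Vale.Agent.P366 hiding E omega
open Vale.Agent.P366.Stmt Vale.Agent.P366Z

noncomputable section

namespace Vale.Agent.P366M.G

theorem Rg.opn {n : ℕ} {M : Type} [Mfe n M] {g : Fld n M} (hg : Met g) (U : M → ℝ) (κ : ℝ)
    (Am Ap : Set M) : IsOpen {x | Rg g U κ Am Ap x} :=
  isOpen_iff_mem_nhds.2 fun x ⟨φ, h1, h2, h3⟩ => by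
    filter_upwards [h3.eventually_nhds, (hg.cont_gn h1.one).continuousAt.eventually_ne h2]
      with y a b using ⟨φ, h1, b, a⟩

theorem fat_move {n : ℕ} {A : Set (E n)} {c η η' : ℝ} {x y : E n}
    (h : Fat A c y η' (‖y‖ / 4)) (h1 : η' ≤ η / 2) (h2 : dist y x ≤ η / 2)
    (h3 : ‖x‖ ≤ 2 * ‖y‖) : Fat A (c / 2 ^ n) x η (‖x‖ / 4) := fun t t1 t2 => by
  rw [show c / 2 ^ n * t ^ n = c * (t / 2) ^ n by rw [div_pow]; ring]
  exact (h _ (by linarith) (by linarith)).trans (measure_mono (inter_subset_inter_left _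
    (ball_subset_ball' (by linarith))))

theorem mb_of (hE : CAPE) (hC : CRG) (hM : MBC) : MB := by
  intro n M _ C'
  obtain ⟨c', c0, c1, hM⟩ := hM n M C'
  refine ⟨c', c0, c1, fun C₀ => ?_⟩
  obtain ⟨c, c2, hM⟩ := hM C₀
  refine ⟨c / 2 ^ n, by positivity, ?_⟩
  intro B L m p q hB hP U a β R s' hS κ hκ r hr ρ' hρ
  obtain ⟨T, hM⟩ := hM B L m p q U a β R s' hB hP hS κ ⟨hκ.1, hκ.2.le⟩ r hr
  replace hM := hM T le_rfl (ρ' / 2) (half_pos hρ.1)
  have sρ : Smooth fun y => U y ^ (2 * gam n) := hS.sm.rpow (hS.pos hB) _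
  have ρ0 : ∀ y, 0 < U y ^ (2 * gam n) := fun y => Real.rpow_pos_of_pos (hS.pos hB y) _
  have sk : Smooth fun y => κ * m y + T * (p y - q y) :=
    CD.add (cd_const.mul hP.smm) (cd_const.mul (CD.sub hP.smp hP.smq))
  obtain ⟨C, hE⟩ := hE n M B.g _ _ B.ρ (L + 3) hB.dim hB.met hB.flat sρ ρ0 sk
  have key : ∀ i : ℕ, ∃ (u ψ : M → ℝ) (t τ : ℝ), Smooth u ∧ 0 ≤ τ ∧ τ ≤ 1 / (i + 1) ∧
      |t| ≤ 1 / (i + 1) ∧ (∀ x ∈ bl M (L + 3), |τ * u x| ≤ C + 1 ∧
        dv B.g (nf B.g (fun y => U y ^ (2 * gam n)) u) x =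
          κ * m x + T * (p x - q x) + U x ^ (2 * gam n) * (t + τ * u x)) ∧
      volume {x | x ∈ bl M (L + 3) ∧ |u x| ≤ i} ≤ ENNReal.ofReal (1 / (i + 1)) ∧
      Mb B L m U a s' κ (ρ' / 2) r C₀ c 2 (1 / (i + 1)) u ψ := fun i => by
    have i0 : (0 : ℝ) < 1 / (i + 1) := by positivity
    obtain ⟨δ', d0, hM⟩ := hM 2 _ i0
    obtain ⟨δ, d1, d2, d3⟩ : ∃ δ > (0 : ℝ), δ ≤ δ' ∧ δ ≤ 1 / (i + 1) :=
      ⟨_, lt_min d0 i0, min_le_left _ _, min_le_right _ _⟩
    have d4 : δ ≤ 1 := d3.trans ((div_le_one (by positivity)).2 (by linarith [i.cast_nonneg (α := ℝ)]))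
    obtain ⟨T₀, t0, hT⟩ := pigeon1 (meas_bl (L + 3)) (volume_bl (M := M) (L + 3)) d1
    have τ0 : 0 < δ / (T₀ + 1) := by positivity
    have τ1 : δ / (T₀ + 1) ≤ δ := div_le_self d1.le (by linarith)
    obtain ⟨f, f1, f2⟩ := hE _ ⟨τ0, τ1.trans d4⟩
    obtain ⟨t, t1, t2⟩ := hT f f1.cont.measurable
    have t3 : |δ / (T₀ + 1) * t| ≤ δ := by
      rw [abs_mul, abs_of_pos τ0, div_mul_eq_mul_div, div_le_iff₀ (by positivity)]
      gcongr
      linarith
    obtain ⟨ψ, hψ⟩ := hM _ t f τ0 (τ1.trans d2) (t3.trans d2)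
      ⟨f1, fun x hx => by rw [(f2 x hx).2, add_assoc]⟩ (le_trans (measure_mono fun x hx =>
        And.intro hx.1 (hx.2.trans (inv_anti₀ d1 d2))) (t2.trans (ENNReal.ofReal_le_ofReal d2)))
    refine ⟨_, ψ, δ / (T₀ + 1) * t, _, CD.sub f1 cd_const, τ0.le, τ1.trans d3, t3.trans d3,
      fun x hx => ⟨?_, ?_⟩, le_trans (measure_mono fun x hx => And.intro hx.1 (hx.2.trans ?_))
        (t2.trans (ENNReal.ofReal_le_ofReal d3)), hψ⟩
    · rw [mul_sub]
      exact (abs_sub _ _).trans (add_le_add (f2 x hx).1 (t3.trans d4))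
    · have e : nf B.g (fun y => U y ^ (2 * gam n)) (fun x => f x - t) =
          nf B.g (fun y => U y ^ (2 * gam n)) f := by
        funext j y
        simp only [nf, gr, ip, pd_sub_const]
      rw [e, (f2 x hx).2]
      ring
    · have := inv_anti₀ d1 d3
      rw [one_div, inv_inv] at this
      linarith
  choose u ψ t τ u1 τ0 τ1 t1 u2 u3 hb using key
  obtain ⟨𝒰, h𝒰⟩ := Ultrafilter.exists_le (atTop : Filter ℕ)
  have z0 : Tendsto (fun i : ℕ => 1 / ((i : ℝ) + 1)) 𝒰 (𝓝 0) :=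
    tendsto_one_div_add_atTop_nhds_zero_nat.mono_left h𝒰
  have hQ : Sq B.g (fun y => U y ^ (2 * gam n)) (fun y => κ * m y + T * (p y - q y))
      (bl M (L + 3)) 𝒰 u t τ :=
    ⟨hB.met, sρ, ρ0, sk, isOpen_bl _, u1, squeeze_zero_norm t1 z0, squeeze_zero τ0 τ1 z0, τ0,
      fun i x hx => (u2 i x hx).2⟩
  have r0 : 8 * B.ρ ≤ r := by
    have r1 : 0 < r := (mul_pos_iff_of_pos_left c0).1 (by linarith [hB.one, hr.ρr])
    linarith [hr.ρr, mul_le_mul_of_nonneg_right c1 r1.le]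
  have r1 := hB.one
  have r2 := hr.rL
  have f1 : ∀ x : M, 3 * r / 4 < ‖px x‖ → ‖px x‖ < L + 11 / 4 → x ∈ Sp 𝒰 u := fun x h1 h2 => by
    filter_upwards [tendsto_snd.eventually ((cont_npx.continuousAt.eventually
      (lt_mem_nhds h1)).and (cont_npx.continuousAt.eventually (gt_mem_nhds h2)))] with z hz
    linarith [(hb z.1).conf z.2 hz.1.le hz.2.le]
  have f2 : ∀ x : M, B.F x ≤ s' - ρ' → x ∈ Sp 𝒰 (fun i y => -u i y) ∩ bl M (L + 2) :=
    fun x h1 => by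
    refine ⟨?_, show ‖px x‖ < L + 2 from not_le.1 fun k => ?_⟩
    · filter_upwards [tendsto_snd.eventually (hB.smF.cont.continuousAt.eventually
        (gt_mem_nhds (show B.F x < s' - ρ' / 2 by linarith [hρ.1])))] with z hz
      linarith [(hb z.1).col z.2 hz.le]
    · linarith [hB.far x (by linarith), hS.s2, hρ.1]
  have f3 : ∀ x : M, 7 / 8 * r ≤ ‖px x‖ → x ∈ Sp 𝒰 u ∪ {x | L + 2 < ‖px x‖} := fun x h1 =>
    (lt_or_ge (L + 2) ‖px x‖).elim Or.inr fun k => Or.inl (f1 x (by linarith) (by linarith))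
  set Am := Sp 𝒰 (fun i y => -u i y) ∩ bl M (L + 2)
  set Ap := Sp 𝒰 u ∪ {x | L + 2 < ‖px x‖}
  have om : IsOpen Am := (Sp.opn _ _).inter (isOpen_bl _)
  have op : IsOpen Ap := (Sp.opn _ _).union (isOpen_lt continuous_const cont_npx)
  have f4 : ∀ x, x ∉ Ap → ‖px x‖ < 7 / 8 * r := fun x hx => not_le.1 fun k => hx (f3 x k)
  have cS : IsClosed ((Am ∪ Ap)ᶜ ∩ {x | Rg B.g U κ Am Ap x}ᶜ) :=
    (om.union op).isClosed_compl.inter (Rg.opn hB.met _ _ _ _).isClosed_compl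
  refine ⟨Am, Ap, _, ⟨om, op, disjoint_left.2 fun x a b => ?_, cS, fun x hx => not_or.1 hx.1,
    fun e he => ?_, fun x a b k => by_contra fun l => k ⟨not_or.2 ⟨a, b⟩, l⟩⟩, f2, f3,
    fun η η0 K hK hKp x₀ _ x2 => ?_⟩
  · exact b.elim (fun b => Sp.dj b a.1) fun b => lt_asymm (show L + 2 < ‖px x‖ from b) a.2
  · refine hQ.null hC hB.dim (fun i x hx => (u2 i x hx).1) (fun s => ?_) cS
      (fun x hx => ?_) (fun x hx => ?_) he
    · refine tendsto_of_tendsto_of_tendsto_of_le_of_le' tendsto_const_nhds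
        (ENNReal.ofReal_zero ▸ ENNReal.tendsto_ofReal z0) (.of_forall fun _ => zero_le) ?_
      filter_upwards [h𝒰 (tendsto_natCast_atTop_atTop.eventually_ge_atTop s)] with i hi
      exact le_trans (measure_mono fun x hx => And.intro hx.1 (hx.2.trans hi)) (u3 i)
    · show ‖px x‖ < L + 3
      linarith [f4 x (not_or.1 hx.1).2]
    · obtain ⟨x1, x2⟩ := not_or.1 hx.1
      have x3 : ‖px x‖ < L := by linarith [f4 x x2]
      refine ⟨fun k => x2 (Or.inl k), fun k => x1 ⟨k, show ‖px x‖ < L + 2 by linarith⟩,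
        fun ⟨φ, k1, k2, k3⟩ => hx.2 ⟨φ, k1, k2, ?_⟩⟩
      filter_upwards [k3, cont_npx.continuousAt.eventually (gt_mem_nhds x3)] with y ⟨a, b, d⟩ y1
      refine ⟨Iff.trans (or_iff_left (show ¬L + 2 < ‖px y‖ by linarith)) a,
        Iff.trans (and_iff_left (show ‖px y‖ < L + 2 by linarith)) b, fun k => (d k).trans ?_⟩
      have y2 : s' - ρ' < B.F y := not_le.1 fun l => (b.1 (f2 y l).1).ne k
      rw [hP.m1 y y1.le, hP.p0 y (by linarith [hS.s1, hρ.2, hB.s0]), hP.q0 y (by linarith)]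
      ring
  · have e1 := Sp.cpt ((isCompact_px M (3 * r / 4)).inter_left hK) (l := 𝒰) (u := u)
      fun x hx => (hKp hx.1).resolve_right
        (show ¬L + 2 < ‖px x‖ from not_lt.2 (le_trans hx.2 (by linarith)))
    have e2 : ∃ᶠ z : ℕ × M in (𝒰 : Filter ℕ) ×ˢ 𝓝 x₀, ¬1 < u z.1 z.2 := fun k =>
      x2 (Or.inl (k.mono fun _ => not_not.1))
    have e3 : ∀ᶠ y in 𝓝 x₀, dist (px y) (px x₀) < min (η / 2) (B.ρ / 6) :=
      cont_px.continuousAt.eventually (ball_mem_nhds _ (lt_min (half_pos η0) (by linarith)))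
    obtain ⟨⟨i, y⟩, y1, ⟨y2, y3⟩, y4⟩ := (e2.and_eventually ((tendsto_fst.eventually
      (e1.and (z0.eventually (ge_mem_nhds (half_pos η0))))).and (tendsto_snd.eventually e3))).exists
    have y5 : 1 / ((i : ℝ) + 1) ≤ η := y3.trans (half_le_self η0.le)
    refine ⟨ψ i, ⟨(hb i).near.1, fun ψ' k => ((hb i).near.2 ψ' k).trans (by linarith)⟩,
      (hb i).thin.trans (ENNReal.ofReal_le_ofReal y5), fun x hx =>
        le_antisymm ((hb i).near.1.mem x).2 (not_lt.1 fun k => ?_), fun k1 k2 => ?_⟩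
    · exact lt_asymm ((hb i).lt1 x k).2 (y2 x ⟨hx, ((hb i).lt1 x k).1.le⟩)
    · have y6 := y4.trans_le (min_le_right _ _)
      rw [dist_eq_norm] at y6
      have y7 := abs_le.1 (abs_norm_sub_norm_le (px y) (px x₀))
      have y8 := hB.flat.R
      have y9 := f4 x₀ x2
      refine fat_move ((hb i).fat (px y) (by linarith [y7.1]) (by linarith [y7.2])
        (fun z hz => ?_) ?_) y3 (y4.le.trans (min_le_left _ _)) (by linarith [y7.1])
      · have := norm_sub_norm_le (px y) z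
        rw [mem_ball, dist_comm, dist_eq_norm] at hz
        refine k2 _ ?_
        rw [px_yp (by linarith [y7.1])]
        linarith [y7.1]
      · rw [fe, yp_px (by linarith [y7.1])]
        exact (not_lt.1 y1).trans one_le_two

end Vale.Agent.P366M.G
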