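import Vale.Agent.P366Q.O.Den

/-!
# P366Q, block O: the row MBC
-/

open MeasureTheory Metric Filter Topology Set
open scoped ContDiff ENNReal
open Vale.Agent.P366 Vale.Agent.P366.Stmt Vale.Agent.P366Z

noncomputable section

namespace Vale.Agent.P366M.G

variable {n : ℕ} {M : Type} [Mfe n M] {B : Bg n M} {L : ℝ} {m p q : M → ℝ}

/-- the isoperimetric bound in the end -/
theorem iso (hn : 3 ≤ n) (M : Type) [Mfe n M] : ∃ G > (0 : ℝ), ∀ (B : Bg n M) (U ψ : M → ℝ)
    (a R r : ℝ) (A : Set (E n)), B.Ok → Continuous U → 0 < a → (∀ x, a ≤ U x ^ (2 * gam n)) →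
    Smooth ψ → (∀ x, ψ x ∈ Icc (0 : ℝ) 1) → (∀ x, R ≤ ‖px x‖ → ψ x = 1) → B.ρ ≤ r →
    (∀ z ∈ A, 2 * r ≤ ‖z‖ ∧ fe ψ z = 0) →
    (volume A).toReal ^ (n - 1) ≤ (G * (per B U ψ / a + r ^ (n - 1))) ^ n := by
  obtain ⟨G, G0, hG⟩ := OH.sob (n := n) (by omega)
  obtain ⟨C, C0, hC⟩ := P366Z.fderiv_cut n
  have hω := omega_pos (n := n) (by omega)
  have n0 : (0 : ℝ) < n := by exact_mod_cast (show 0 < n by omega)
  set D := C * (Stmt.omega n / n * 3 ^ n) with hD
  refine ⟨G * (1 + D), by positivity, fun B U ψ a R r A hB cU a0 aU hψ ψ01 far hr hA => ?_⟩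
  have hg := hB.met
  have hf := hB.flat
  have R1 := hf.R
  have R8 := R0_ge M
  have r0 : 0 < r := by linarith
  have γ0 : 0 ≤ 2 * gam n := by linarith [one_lt_gam hn]
  set u := xfj Mfe.o 1 ψ with hu
  have su : ContDiff ℝ 1 u := (hψ.xfj _ _).of_le one_le_oo
  have u01 := xfj_mem (j := Mfe.o) (c := 1) (by simp) ψ01
  have sc : ContDiff ℝ 1 (P366Z.cut r : E n → ℝ) := (P366Z.sm_cut r).of_le one_le_oo
  have uR : ∀ z, max R B.ρ ≤ ‖z‖ → u z = 1 := fun z hz => by
    have := le_max_right R B.ρ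
    rw [hu, xfj_eq (by linarith), far _ (by rw [px_ye (by linarith)]; exact le_of_max_le_left hz)]
  have w1 : ContDiff ℝ 1 fun z => (1 - P366Z.cut r z) * (1 - u z) :=
    (contDiff_const.sub sc).mul (contDiff_const.sub su)
  have w2 : HasCompactSupport fun z => (1 - P366Z.cut r z) * (1 - u z) :=
    P366Z.supp_of_out fun z hz => by rw [uR z hz, sub_self, mul_zero]
  have pt : ∀ z, ‖fderiv ℝ (fun z => (1 - P366Z.cut r z) * (1 - u z)) z‖ ≤
      (1 - P366Z.cut r z) * ‖fderiv ℝ u z‖ + (ball (0 : E n) (3 * r)).indicator (fun _ => C / r) z := by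
    intro z
    have d1 := (sc.differentiable one_ne_zero z).hasFDerivAt.const_sub 1
    have d2 := (su.differentiable one_ne_zero z).hasFDerivAt.const_sub 1
    rw [(d1.fun_mul d2).fderiv]
    refine (norm_add_le _ _).trans (add_le_add (le_of_eq ?_) ?_)
    · rw [norm_smul, norm_neg, Real.norm_of_nonneg (sub_nonneg.2 (P366Z.cut_le_one r z))]
    · rw [norm_smul, norm_neg, Real.norm_of_nonneg (sub_nonneg.2 (u01 z).2)]
      refine (mul_le_of_le_one_left (norm_nonneg _) (by linarith [(u01 z).1])).trans ?_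
      by_cases k : z ∈ ball (0 : E n) (3 * r)
      · rw [indicator_of_mem k]; exact hC r r0 z
      · rw [indicator_of_notMem k, DensH.fderiv_zero (fun z => ⟨P366Z.cut_nonneg r z,
          P366Z.cut_le_one r z⟩) (Or.inl (P366Z.cut_zero r0 (by
            rw [mem_ball_zero_iff, not_lt] at k; linarith))), norm_zero]
  have i1 : Integrable fun z => (1 - P366Z.cut r z) * ‖fderiv ℝ u z‖ :=
    P366Z.integrable_of_out ((continuous_const.sub sc.continuous).mul
      (su.continuous_fderiv one_ne_zero).norm) fun z hz => by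
        rw [DensH.fderiv_zero u01 (Or.inr (uR z hz)), norm_zero, mul_zero]
  have i2 : Integrable ((ball (0 : E n) (3 * r)).indicator fun _ => C / r) :=
    (integrable_indicator_iff measurableSet_ball).2 (integrableOn_const measure_ball_lt_top.ne)
  have lψ : Lip ψ := lip_of_const hψ fun z hz => far z hz.le
  have j1 : ∫ z, (1 - P366Z.cut r z) * ‖fderiv ℝ u z‖ ≤ per B U ψ / a := by
    rw [← integral_out (M := M) (R := r) (f := fun x => (1 - cut r x) * gn B.g ψ x) (by linarith)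
      (fun x hx => by rw [cut_one hx.le, sub_self, zero_mul])
      (fun z hz => by rw [P366Z.cut_one hz.le, sub_self, zero_mul]) fun z hz => by
        have e : B.ρ ≤ ‖px (yp z : M)‖ := by rw [px_yp (by linarith)]; linarith
        rw [hf.gn_eq e, gn_eu (hψ.diff _), hu, ← fd_xfj (by linarith), ← cut_ye (j := Mfe.o)
          (by linarith)]; rfl, le_div_iff₀' a0, ← integral_const_mul]
    refine integral_mono ((lψ.integrable_gn hg hf far (continuous_const.sub
      (sm_cut r).cont)).const_mul a) ((lψ.integrable_gn hg hf far ((cU.rpow_const fun _ =>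
        Or.inr γ0).mul hg.sm_dens.cont)).congr (Eventually.of_forall fun x => by
          simp only [Pi.mul_apply]; ring)) fun x => ?_
    have g0 := gn_nonneg B.g ψ x
    have k0 := a0.le.trans (aU x)
    show a * ((1 - cut r x) * _) ≤ _ * _ * _
    rcases le_total ‖px x‖ r with k | k
    · rw [cut_one k, sub_self, zero_mul, mul_zero]
      exact mul_nonneg (mul_nonneg k0 g0) (dens_nonneg _ _)
    · rw [hf.dens_eq (hr.trans k), mul_one]
      exact mul_le_mul (aU x) (mul_le_of_le_one_left g0 (by linarith [cut_nonneg r x]))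
        (mul_nonneg (by linarith [cut_le_one r x]) g0) k0
  have j2 : ∫ z, (ball (0 : E n) (3 * r)).indicator (fun _ => C / r) z = D * r ^ (n - 1) := by
    rw [integral_indicator_const _ measurableSet_ball, smul_eq_mul, measureReal_def,
      real_ball (by omega) _ (by positivity), hD]
    obtain ⟨k, rfl⟩ : ∃ k, n = k + 1 := ⟨n - 1, by omega⟩
    rw [Nat.add_sub_cancel, mul_pow, pow_succ r]
    field_simp
  have P0 : 0 ≤ per B U ψ / a := (integral_nonneg fun z => mul_nonneg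
    (sub_nonneg.2 (P366Z.cut_le_one r z)) (norm_nonneg _)).trans j1
  have j3 : ∫ z, ‖fderiv ℝ (fun z => (1 - P366Z.cut r z) * (1 - u z)) z‖ ≤
      (1 + D) * (per B U ψ / a + r ^ (n - 1)) := by
    refine (integral_mono ((w1.continuous_fderiv one_ne_zero).integrable_of_hasCompactSupport
      (w2.fderiv ℝ)).norm (i1.add i2) pt).trans ?_
    rw [integral_add' i1 i2, j2]
    have : 0 ≤ D * (per B U ψ / a) := by positivity
    have : 0 ≤ r ^ (n - 1) := by positivity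
    linarith
  rw [mul_assoc]
  refine le_trans (pow_le_pow_left₀ ENNReal.toReal_nonneg (ENNReal.toReal_mono ?_
    (measure_mono fun z hz => ?_)) _) (hG _ {z | (1 - P366Z.cut r z) * (1 - u z) = 1} _ w1 w2
      (isClosed_eq w1.continuous continuous_const).measurableSet (fun _ hz => hz) j3)
  · exact ((measure_mono fun z (hz : _ = _) => subset_tsupport _ (by
      rw [Function.mem_support, hz]; exact one_ne_zero)).trans_lt w2.isCompact.measure_lt_top).ne
  · obtain ⟨z1, z2⟩ := hA z hz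
    show _ = _
    rw [P366Z.cut_zero r0 z1, hu, xfj_eq (by linarith), show ψ (ye Mfe.o z) = 0 from z2]
    norm_num

theorem vol_le_bl (hB : B.Ok) (hP : Pen B L m p q) {ψ : M → ℝ} (h : ∀ x, 0 ≤ ψ x ∧ ψ x ≤ 1)
    (hψ : Continuous ψ) : ∫ x, m x * ψ x * dens B.g x ≤ ∫ x in bl M (L + 1), dens B.g x := by
  rw [← setIntegral_eq_integral_of_forall_compl_eq_zero (s := bl M (L + 1)) fun x hx => by
    rw [hP.m0 x (not_lt.1 hx), zero_mul, zero_mul]]
  refine setIntegral_mono (Cls.int_vol hB hP hψ).integrableOn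
    ((hB.met.sm_dens.cont.continuousOn.integrableOn_compact (isCompact_px M (L + 1))).mono_set
      fun x (hx : ‖px x‖ < _) => hx.le) fun x => ?_
  exact mul_le_of_le_one_left (dens_nonneg _ _) (mul_le_one₀ (hP.m01 x).2 (h x).1 (h x).2)

theorem ev_le1 {e : ℝ} (h : 0 < e) : ∀ᶠ δ in 𝓝[>] (0 : ℝ), δ ≤ e :=
  (eventually_le_nhds h).filter_mono nhdsWithin_le_nhds

/-- the truncation -/
theorem exists_tq {U f : M → ℝ} {κ T τ t δ Z : ℝ} (hB : B.Ok) (hP : Pen B L m p q)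
    (H : Cq B L m p q U κ T τ f) (T0 : 0 ≤ T) (κ0 : κ ≤ 0) (τ0 : 0 < τ) (τ1 : τ ≤ δ)
    (τ2 : |τ * t| ≤ δ)
    (hv : volume {x | ‖px x‖ < L + 3 ∧ |f x - t| ≤ δ⁻¹} ≤ ENNReal.ofReal δ) (Z1 : 1 ≤ Z)
    (Z2 : δ ≤ Z⁻¹) (kc : ∀ x, B.F x ≤ B.s / 4 → f x - t ≤ 0)
    (ko : ∀ x, L + 9 / 4 ≤ ‖px x‖ → ‖px x‖ ≤ L + 11 / 4 → Z ≤ f x - t) :
    ∃ v, Tq B L m p q U κ T τ t δ Z f v := by
  have ρ1 := hB.one
  have big := hP.big
  obtain ⟨χ, eχ⟩ : ∃ χ : M → ℝ, χ = fun x => Real.smoothTransition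
    (((L + 11 / 4) ^ 2 - ‖px x‖ ^ 2) / ((L + 11 / 4) ^ 2 - (L + 9 / 4) ^ 2)) := ⟨_, rfl⟩
  have g0 : 0 < (L + 11 / 4) ^ 2 - (L + 9 / 4) ^ 2 := by nlinarith
  have sχ : Smooth χ := by
    rw [eχ]
    exact Real.smoothTransition.contDiff.compM ((cd_const.sub contDiff_normSq).div_const _)
  have veq : ∀ x, ‖px x‖ ≤ L + 9 / 4 → χ x * (f x - t) + (1 - χ x) * Z = f x - t := fun x hx => by
    have : χ x = 1 := by
      rw [eχ]
      refine Real.smoothTransition.one_of_one_le ((one_le_div g0).2 ?_)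
      linarith [pow_le_pow_left₀ (norm_nonneg _) hx 2]
    simp [this]
  refine ⟨fun x => χ x * (f x - t) + (1 - χ x) * Z, H, T0, κ0, τ0, τ1, τ2, hv, Z1,
    (le_inv_comm₀ (by linarith) (by linarith)).2 Z2,
    (CD.mul sχ (CD.sub H.sm cd_const)).add ((cd_const.sub sχ).mul cd_const), veq,
    fun x hx => ?_, fun x hx => ?_⟩
  · rcases le_total ‖px x‖ (L + 11 / 4) with k | k
    · have : 0 ≤ χ x := by rw [eχ]; exact Real.smoothTransition.nonneg _
      linarith [mul_le_mul_of_nonneg_left (ko x hx k) this]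
    · have : χ x = 0 := by
        rw [eχ]
        refine Real.smoothTransition.zero_of_nonpos (div_nonpos_of_nonpos_of_nonneg ?_ g0.le)
        linarith [pow_le_pow_left₀ (by linarith) k 2]
      simp [this]
  · rw [veq x (by linarith [hB.near (x := x) (by linarith [hB.s0])])]
    exact kc x hx

theorem Cf.big {U : M → ℝ} {a κ C c r : ℝ} (hB : B.Ok) (h : Cf B L U a κ C c r) (c0 : 0 < c)
    (c1 : c ≤ 1 / 8) : 8 * B.ρ ≤ r := by
  have := hB.one
  have := h.ρr
  have r0 : 0 < r := pos_of_mul_pos_right (by linarith : 0 < c * r) c0.le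
  nlinarith

/-- **the confinement** -/
theorem conf (hn : 3 ≤ n) (M : Type) [Mfe n M] (C' : ℝ) : ∃ c' > (0 : ℝ), c' ≤ 1 / 8 ∧
    ∀ (B : Bg n M) L m p q U a β R s' κ r, B.Ok → Pen B L m p q → St B U a β R s' →
      Cf B L U a κ C' c' r → ∀ l > (0 : ℝ), ∃ δ₀ > (0 : ℝ), ∀ T τ t δ f v, δ ≤ δ₀ →
        Tq B L m p q U κ T τ t δ (L + l) f v → ∀ x, 3 * r / 4 ≤ ‖px x‖ → l ≤ v x := by
  obtain ⟨G, G0, hG⟩ := iso hn M
  obtain ⟨c₁, c1, h1⟩ := den hn M C'
  set K : ℝ := 2 ^ (2 * gam n) with hK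
  have K0 : 0 < K := by positivity
  have ev : ∀ᶠ c' in 𝓝 (0 : ℝ), (G * (3 * K + 1) * c') ^ n < (c₁ / 2 / 8 ^ n) ^ (n - 1) := by
    refine ContinuousAt.eventually_lt (by fun_prop) continuousAt_const ?_
    rw [mul_zero, zero_pow (by omega)]; positivity
  obtain ⟨c', ⟨e1, e2⟩, e0⟩ := (((ev.filter_mono nhdsWithin_le_nhds).and
    (ev_le1 (e := 1 / 8) (by norm_num))).and self_mem_nhdsWithin).exists
  refine ⟨c', e0, e2, fun B L m p q U a β R s' κ r hB hP hS hC l l0 => ?_⟩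
  obtain ⟨C, C0, hN⟩ := near hB hP hS
  have R1 := hB.flat.R
  have R8 := R0_ge M
  have a0 := hS.a0
  have rL := hC.rL
  have r8 := hC.big hB e0 e2
  have r0 : 0 < r := by linarith
  obtain ⟨δ₃, d3, k3⟩ := h1 B L m p q U a β R s' hB hP hS (L + l) (by linarith)
  set P := a ^ (2 * gam n) with hPa
  have P0 : 0 < P := by positivity
  refine ⟨min δ₃ (min (c' * P * r ^ (n - 1) / C) (c₁ * (r / 8) ^ n / 2)), by positivity,
    fun T τ t δ f v hδ Q x hx => le_of_not_gt fun hlt => ?_⟩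
  obtain ⟨b3, b8, b9⟩ := by simpa only [le_min_iff] using hδ
  have hper : per B U (ps v) ≤ 3 * (c' * P * r ^ (n - 1)) := by
    obtain ⟨ψ₀, j1, j2⟩ := hC.per
    have j3 := hN _ _ _ _ _ _ _ _ Q ψ₀ j1
    have j4 := mul_nonpos_of_nonpos_of_nonneg Q.κ0 (vol_nonneg hP fun x => (j1.mem x).1)
    have j5 := mul_le_mul_of_nonneg_left (vol_le_bl hB hP (ps_mem v) Q.lip.cont) (abs_nonneg κ)
    have j6 := hC.kap
    have j7 : 0 ≤ |κ| * (L + 1) ^ n := mul_nonneg (abs_nonneg _) (pow_nonneg (by linarith) _)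
    have j8 : c' * P * 1 ≤ c' * P * r ^ (n - 1) :=
      mul_le_mul_of_nonneg_left (one_le_pow₀ (by linarith)) (by positivity)
    rw [show (n - 1 : ℝ) = (n - 1 : ℕ) by rw [Nat.cast_sub (by omega), Nat.cast_one],
      Real.rpow_natCast] at j2
    rw [le_div_iff₀' C0] at b8
    rw [abs_of_nonpos Q.κ0] at j5 j6 j7
    unfold pp at j3
    linarith
  have far : ∀ z ∈ ball (px x) (r / 8), 5 * r / 8 < ‖z‖ := fun z hz => by
    have := norm_sub_norm_le (px x) z
    rw [mem_ball', dist_eq_norm] at hz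
    linarith
  have j1 := k3 _ _ _ _ _ _ _ _ b3 Q (px x) (r / 8) l (by positivity) (by linarith) (by linarith)
    le_rfl (fun z hz => ⟨by linarith [far z hz], hC.up _ (by
      rw [px_yp (by linarith [far z hz])]; linarith [far z hz])⟩)
    (by rw [fe, yp_px (by linarith)]; exact hlt.le)
  have j2 := hG B U (ps v) _ _ (c' * r) (ball (px x) (r / 8) ∩ {z | fe (ps v) z = 0}) hB
    hS.sm.cont (by positivity) (hS.le_w hB) (sm_ps Q.sm) (ps_mem v) (fun _ => Q.far) hC.ρr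
    fun z hz => ⟨by linarith [far z hz.1, mul_le_mul_of_nonneg_right e2 r0.le], hz.2⟩
  have j3 : per B U (ps v) / (a / 2) ^ (2 * gam n) + (c' * r) ^ (n - 1) ≤
      (3 * K + 1) * c' * r ^ (n - 1) := by
    have i1 : c' ^ (n - 1) ≤ c' := pow_le_of_le_one e0.le (by linarith) (by omega)
    have i2 := mul_le_mul_of_nonneg_right i1 (pow_nonneg r0.le (n - 1))
    rw [Real.div_rpow a0.le two_pos.le, mul_pow, div_div_eq_mul_div]
    have : per B U (ps v) * K / P ≤ 3 * K * c' * r ^ (n - 1) := by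
      rw [div_le_iff₀ P0]; linarith [mul_le_mul_of_nonneg_right hper K0.le]
    linarith
  have j4 : c₁ / 2 / 8 ^ n * r ^ n ≤
      (volume (ball (px x) (r / 8) ∩ {z | fe (ps v) z = 0})).toReal := by
    have : c₁ / 2 / 8 ^ n * r ^ n = c₁ * (r / 8) ^ n / 2 := by rw [div_pow]; ring
    linarith
  have j5 := (pow_le_pow_left₀ (by positivity) j4 _).trans (j2.trans (pow_le_pow_left₀
    (mul_nonneg G0.le (add_nonneg (div_nonneg (per_nonneg _ _ fun x => (hS.pos hB x).le)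
      (by positivity)) (by positivity))) (mul_le_mul_of_nonneg_left j3 G0.le) n))
  rw [mul_pow, ← mul_assoc, ← mul_assoc, mul_pow _ (r ^ (n - 1)), pow_right_comm r n] at j5
  exact (le_of_mul_le_mul_right j5 (by positivity)).not_gt e1

/-- **row MBC** -/
theorem mbc : MBC := by
  intro n M _ C'
  by_cases hn : 3 ≤ n
  swap
  · exact ⟨1 / 8, by norm_num, le_rfl, fun _ => ⟨1, one_pos, fun B _ _ _ _ _ _ _ _ _ hB =>
      absurd hB.dim hn⟩⟩
  obtain ⟨c', e0, e2, h1⟩ := conf hn M C'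
  refine ⟨c', e0, e2, fun C₀ => ?_⟩
  obtain ⟨c₀, c0, h0⟩ := den hn M C₀
  refine ⟨c₀ / 2, by positivity, fun B L m p q U a β R s' hB hP hS κ hκ r hC => ?_⟩
  obtain ⟨T₁, hT₁⟩ := col hB hP hS hκ
  obtain ⟨T₂, hT₂⟩ := out hB hP hS κ
  obtain ⟨C, C0, hN⟩ := near hB hP hS
  have R1 := hB.flat.R
  have R8 := R0_ge M
  have s0 := hB.s0
  have rL := hC.rL
  have r8 := hC.big hB e0 e2
  refine ⟨max (max T₁ T₂) 0, fun T hT ρ' ρ0 l η η0 => ?_⟩
  obtain ⟨l₁, l1, l2⟩ : ∃ l₁ : ℝ, 1 ≤ l₁ ∧ l ≤ l₁ := ⟨max 1 l, le_max_left _ _, le_max_right _ _⟩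
  obtain ⟨δ₁, d1, k1⟩ := hT₁ T (le_of_max_le_left (le_of_max_le_left hT)) (min ρ' (B.s / 4))
    (by positivity) l₁
  obtain ⟨δ₂, d2, k2⟩ := hT₂ T (le_of_max_le_right (le_of_max_le_left hT)) (L + l₁)
  have A0 : 0 < L + l₁ := by linarith
  obtain ⟨δ₃, d3, k3⟩ := h1 B L m p q U a β R s' κ r hB hP hS hC l₁ (by linarith)
  obtain ⟨δ₄, d4, k4⟩ := h0 B L m p q U a β R s' hB hP hS _ A0
  obtain ⟨δ, ⟨⟨⟨b1, b2, b3⟩, b4, b5, b6⟩, b7, b8⟩, δ0⟩ := (((((ev_le1 d1).and
    ((ev_le1 d2).and (ev_le1 d3))).and ((ev_le1 d4).and ((ev_le1 (inv_pos.2 A0)).and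
      (ev_le1 η0)))).and ((ev_le1 (e := η / C) (by positivity)).and
        (ev_le1 (e := c₀ * η ^ n / 2) (by positivity)))).and self_mem_nhdsWithin).exists
  refine ⟨δ, δ0, fun τ t f τ0 τ1 τ2 H hv => ?_⟩
  have kc := k1 τ t f τ0 (τ1.trans b1) (τ2.trans b1) H
  have ko := k2 τ t f τ0 (τ1.trans b2) (τ2.trans b2) H
  obtain ⟨v, Q⟩ := exists_tq hB hP H (le_of_max_le_right hT) hκ.2 τ0 τ1 τ2 hv (by linarith) b5
    (fun x hx => by linarith [kc x (by linarith [min_le_right ρ' (B.s / 4), hS.s1])]) ko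
  have conf := k3 T τ t δ f v b3 Q
  have cls : Cls B L (ps v) := ⟨Q.lip, ps_mem v, fun x hx => ps_zero (Q.col x hx),
    fun x hx => ps_one (l1.trans (conf x (by linarith)))⟩
  have lt1 : ∀ x, ps v x < 1 → v x < 1 := fun x hx => not_le.1 fun k => hx.ne (ps_one k)
  refine ⟨ps v, ⟨cls, fun ψ hψ => ?_⟩, ?_, fun x hx => ?_, fun x hx => ?_, fun x x1 x2 => ?_,
    fun y y1 y2 y3 y4 s s1 s2 => ?_⟩
  · rw [le_div_iff₀' C0] at b7
    linarith [hN _ _ _ _ _ _ _ _ Q ψ hψ]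
  · refine le_trans (measure_mono fun x hx => Q.bad ?_) (hv.trans (ENNReal.ofReal_le_ofReal b6))
    have : 0 < v x := not_le.1 fun k => hx.1.ne' (ps_zero k)
    rw [abs_of_pos this]
    linarith [lt1 x hx.2]
  · have k := lt1 x hx
    have k' : ‖px x‖ < 3 * r / 4 := not_le.1 fun j => by linarith [conf x j]
    exact ⟨k', by rwa [← Q.eq x (by linarith)]⟩
  · linarith [kc x (by linarith [min_le_left ρ' (B.s / 4)])]
  · rcases le_total ‖px x‖ (L + 9 / 4) with k | k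
    · linarith [Q.eq x k, conf x x1]
    · linarith [ko x k x2]
  · have j1 := k4 _ _ _ _ _ _ _ _ b4 Q y s l₁ (by linarith) (by linarith) (by linarith) le_rfl
      (fun z hz => ⟨by
        have := norm_sub_norm_le y z
        rw [mem_ball', dist_eq_norm] at hz
        linarith, y3 z (ball_subset_ball s2 hz)⟩)
      (by rw [fe, Q.eq _ (by rw [px_yp (by linarith)]; linarith)]; exact y4.trans l2)
    have := mul_le_mul_of_nonneg_left (pow_le_pow_left₀ η0.le s1 n) c0.le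
    exact ENNReal.ofReal_le_of_le_toReal (by linarith)

end Vale.Agent.P366M.G
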