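import Vale.Agent.P366Q.O.Bar
import Vale.Agent.P366Q.G.One0
import Vale.Agent.P366Q.O.Dg

/-!
# P366Q, block O: the near minimiser by calibration
-/

open MeasureTheory Metric Filter Topology Set
open scoped ContDiff ENNReal
open Vale.Agent.P366 Vale.Agent.P366.Stmt Vale.Agent.P366Z

noncomputable section

namespace Vale.Agent.P366M.G

variable {n : ℕ} {M : Type} [Mfe n M] {B : Bg n M} {L a β R s' κ T τ t δ Z : ℝ}
  {m p q U f v : M → ℝ} {x : M}

/-- the truncation `v` of `f - t` at the level `Z` -/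
structure Tq (B : Bg n M) (L : ℝ) (m p q U : M → ℝ) (κ T τ t δ Z : ℝ) (f v : M → ℝ) : Prop where
  cq : Cq B L m p q U κ T τ f
  T0 : 0 ≤ T
  κ0 : κ ≤ 0
  τ0 : 0 < τ
  τ1 : τ ≤ δ
  τt : |τ * t| ≤ δ
  vol : volume {x | ‖px x‖ < L + 3 ∧ |f x - t| ≤ δ⁻¹} ≤ ENNReal.ofReal δ
  Z1 : 1 ≤ Z
  Zδ : Z ≤ δ⁻¹
  sm : Smooth v
  eq : ∀ x, ‖px x‖ ≤ L + 9 / 4 → v x = f x - t
  hi : ∀ x, L + 9 / 4 ≤ ‖px x‖ → Z ≤ v x
  col : ∀ x, B.F x ≤ B.s / 4 → v x ≤ 0

/-- the near minimiser -/
def ps (v : M → ℝ) (x : M) : ℝ := Real.smoothTransition (v x)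

theorem ps_mem (v : M → ℝ) (x : M) : 0 ≤ ps v x ∧ ps v x ≤ 1 :=
  ⟨Real.smoothTransition.nonneg _, Real.smoothTransition.le_one _⟩

theorem ps_one (h : 1 ≤ v x) : ps v x = 1 := Real.smoothTransition.one_of_one_le h

theorem ps_zero (h : v x ≤ 0) : ps v x = 0 := Real.smoothTransition.zero_of_nonpos h

theorem sm_ps (h : Smooth v) : Smooth (ps v) := Real.smoothTransition.contDiff.compM h

theorem deriv_st {z : ℝ} (h : z ≤ 0 ∨ 1 ≤ z) : deriv Real.smoothTransition z = 0 := by
  rcases h with h | h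
  · exact IsLocalMin.deriv_eq_zero (Eventually.of_forall fun y => by
      rw [Real.smoothTransition.zero_of_nonpos h]; exact Real.smoothTransition.nonneg y)
  · exact IsLocalMax.deriv_eq_zero (Eventually.of_forall fun y => by
      rw [Real.smoothTransition.one_of_one_le h]; exact Real.smoothTransition.le_one y)

namespace Tq

variable (H : Tq B L m p q U κ T τ t δ Z f v)
include H

theorem δ0 : 0 < δ := H.τ0.trans_le H.τ1

theorem lt (h : v x < Z) : ‖px x‖ < L + 9 / 4 := not_le.1 fun k => (H.hi x k).not_gt h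

theorem ev (h : v x < Z) : v =ᶠ[𝓝 x] fun y => f y - t :=
  (ev_px_lt (H.lt h)).mono fun y hy => H.eq y hy.le

theorem pd_eq (h : v x < Z) (i : Fin n) : pd i v x = pd i f x := by
  rw [pd_congr (H.ev h), pd_sub_const]

theorem bad (h : |v x| < Z) : ‖px x‖ < L + 3 ∧ |f x - t| ≤ δ⁻¹ := by
  have k := H.lt (abs_lt.1 h).2
  exact ⟨by linarith, by rw [← H.eq x k.le]; exact h.le.trans H.Zδ⟩

theorem meas : MeasurableSet {x | ‖px x‖ < L + 3 ∧ |f x - t| ≤ δ⁻¹} :=
  (meas_bl (L + 3)).inter
    (isClosed_le (H.cq.sm.cont.sub continuous_const).abs continuous_const).measurableSet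

theorem far (h : L + 9 / 4 ≤ ‖px x‖) : ps v x = 1 := ps_one (H.Z1.trans (H.hi x h))

theorem lip : Lip (ps v) := lip_of_const (sm_ps H.sm) fun _ hy => H.far hy.le

theorem pd_ps (i : Fin n) : pd i (ps v) x = deriv Real.smoothTransition (v x) * pd i f x := by
  have e : pd i (ps v) x = deriv Real.smoothTransition (v x) * pd i v x :=
    pd_comp ((Real.smoothTransition.contDiff (n := 1)).differentiable one_ne_zero _).hasDerivAt
      (H.sm.diff x) i
  rw [e]
  rcases lt_or_ge (v x) Z with k | k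
  · rw [H.pd_eq k]
  · rw [deriv_st (Or.inr (H.Z1.trans k)), zero_mul, zero_mul]

end Tq

theorem dot_nf (g : Fld n M) (w f φ : M → ℝ) (x : M) :
    ∑ i, pd i φ x * nf g w f i x = w x * (ip g φ f x / √(1 + ip g f f x)) := by
  rw [ip_eq_gr g φ, Finset.sum_div, Finset.mul_sum]
  exact Finset.sum_congr rfl fun i _ => by rw [nf]; ring

theorem gn_le_W {g : Fld n M} (f : M → ℝ) (x : M) : gn g f x ≤ √(1 + ip g f f x) :=
  Real.sqrt_le_sqrt (by linarith)

theorem ip_div_le {g : Fld n M} (hg : Met g) (f φ : M → ℝ) (x : M) :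
    ip g φ f x / √(1 + ip g f f x) ≤ gn g φ x := by
  rw [div_le_iff₀ (Real.sqrt_pos.2 (one_ip hg f x))]
  exact ((le_abs_self _).trans (hg.abs_ip_le φ f x)).trans
    (mul_le_mul_of_nonneg_left (gn_le_W f x) (gn_nonneg _ _ _))

theorem le_ip_div {g : Fld n M} (hg : Met g) (f : M → ℝ) (x : M) :
    gn g f x - 1 ≤ ip g f f x / √(1 + ip g f f x) := by
  have h0 := Real.sqrt_pos.2 (one_ip hg f x)
  have h1 := Real.sq_sqrt (one_ip hg f x).le
  have h2 : 1 ≤ √(1 + ip g f f x) := Real.one_le_sqrt.2 (by linarith [hg.ip_nonneg f x])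
  have h3 := gn_le_W (g := g) f x
  rw [le_div_iff₀ h0]
  nlinarith

/-- **the calibration** -/
theorem near (hB : B.Ok) (hP : Pen B L m p q) (hS : St B U a β R s') : ∃ C > (0 : ℝ),
    ∀ κ T τ t δ Z f v, Tq B L m p q U κ T τ t δ Z f v → ∀ ψ, Cls B L ψ →
      pp B m U κ (ps v) ≤ pp B m U κ ψ + C * δ := by
  have hg := hB.met
  obtain ⟨Λ, hΛ⟩ := hg.ell hB.flat
  obtain ⟨D, D0, hD⟩ := DensH.deriv_bd
  have Λ1 := hΛ.one
  set K : ℝ := 2 ^ (2 * gam n) with hK
  have K0 : 0 < K := by positivity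
  set V := volume.real (bl M (L + 3)) with hV
  have V0 : 0 ≤ V := measureReal_nonneg
  refine ⟨K * D * Λ + 2 * K * Λ * V, by positivity, fun κ T τ t δ Z f v H ψ hψ => ?_⟩
  set w := fun x => U x ^ (2 * gam n) with hw
  have wsm : Smooth w := hS.w_sm hB
  have δ0 := H.δ0
  have cX := cv_nf hg wsm H.cq.sm
  have cd := hg.sm_dens.cont
  have lφ : Lip fun x => ψ x - ps v x := hψ.lip.sub H.lip
  have φ0 : ∀ x, L + 9 / 4 ≤ ‖px x‖ → ψ x - ps v x = 0 := fun x hx => by
    rw [H.far hx, hψ.one x (by linarith), sub_self]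
  have ib := hg.ibp_dv lφ.llip (supp_of_out φ0) (cX.of_le one_le_oo)
  have i1 : Integrable fun x => w x * gn B.g (ps v) x * dens B.g x :=
    (H.lip.integrable_gn hg hB.flat (fun _ => H.far) (wsm.cont.mul cd)).congr
      (Eventually.of_forall fun x => by simp only [Pi.mul_apply]; ring)
  have i2 := hψ.int_per hB hS.sm.cont
  have i3 := (Cls.int_vol hB hP H.lip.cont).const_mul κ
  have i4 := (Cls.int_vol hB hP hψ.lip.cont).const_mul κ
  have i5 : Integrable fun x => (∑ i, pd i (fun x => ψ x - ps v x) x * nf B.g w f i x) *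
      dens B.g x := (lφ.llip.integrable_dot_out (cX.of_le (by simp)) φ0 cd).congr
        (Eventually.of_forall fun x => mul_comm _ _)
  have i6 : Integrable fun x => (ψ x - ps v x) * dv B.g (nf B.g w f) x * dens B.g x :=
    integrable_of_out ((lφ.cont.mul (hg.sm_dv cX).cont).mul cd) fun y hy => by
      rw [φ0 y hy, zero_mul, zero_mul]
  have fin : volume {x | ‖px x‖ < L + 3 ∧ |f x - t| ≤ δ⁻¹} ≠ ⊤ :=
    (H.vol.trans_lt ENNReal.ofReal_lt_top).ne
  have i7 : Integrable ({x | ‖px x‖ < L + 3 ∧ |f x - t| ≤ δ⁻¹}.indicator fun _ => K * D * Λ) :=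
    (integrable_indicator_iff H.meas).2 (integrableOn_const fin)
  have i8 : Integrable ((bl M (L + 3)).indicator fun _ => 2 * K * Λ * δ) :=
    (integrable_indicator_iff (meas_bl _)).2 (integrableOn_const (volume_bl _).ne)
  have key : ∀ᵐ x, w x * gn B.g (ps v) x * dens B.g x + κ * (m x * ps v x * dens B.g x) +
      ((∑ i, pd i (fun x => ψ x - ps v x) x * nf B.g w f i x) * dens B.g x +
        (ψ x - ps v x) * dv B.g (nf B.g w f) x * dens B.g x) ≤
      w x * gn B.g ψ x * dens B.g x + κ * (m x * ψ x * dens B.g x) +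
        ({x | ‖px x‖ < L + 3 ∧ |f x - t| ≤ δ⁻¹}.indicator (fun _ => K * D * Λ) x +
          (bl M (L + 3)).indicator (fun _ => 2 * K * Λ * δ) x) := by
    filter_upwards [hψ.lip.ae_diff] with x dψ
    have w0 : 0 < w x := hS.w_pos hB x
    have w1 : w x ≤ K := hS.w_le hB x
    have d0 := dens_nonneg B.g x
    have d1 := hΛ.dens_hi x
    set S := deriv Real.smoothTransition (v x) with hS'
    have S0 : 0 ≤ S := Real.smoothTransition.monotone.deriv_nonneg
    have S1 : S ≤ D := (le_abs_self _).trans (hD _)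
    have a1 : w x * gn B.g (ps v) x + ∑ i, pd i (fun x => ψ x - ps v x) x * nf B.g w f i x ≤
        w x * gn B.g ψ x + w x * S := by
      rw [dot_nf, ip_of_pd_add (u := fun x => ψ x - ps v x) (u₁ := ψ) (u₂ := f) (s := 1)
        (t := -S) fun i => by rw [pd_sub dψ ((sm_ps H.sm).diff x), H.pd_ps]; ring,
        gn_of_pd H.pd_ps, abs_of_nonneg S0, ← mul_add, ← mul_add, add_div, one_mul, mul_div_assoc]
      refine mul_le_mul_of_nonneg_left ?_ w0.le
      have := mul_le_mul_of_nonneg_left (le_ip_div hg f x) S0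
      linarith [ip_div_le hg f ψ x]
    have a2 : w x * S * dens B.g x ≤
        {x | ‖px x‖ < L + 3 ∧ |f x - t| ≤ δ⁻¹}.indicator (fun _ => K * D * Λ) x := by
      by_cases k : v x ≤ 0 ∨ 1 ≤ v x
      · rw [hS', deriv_st k, mul_zero, zero_mul]
        exact indicator_nonneg (fun _ _ => by positivity) x
      · push Not at k
        rw [indicator_of_mem (show x ∈ {x | ‖px x‖ < L + 3 ∧ |f x - t| ≤ δ⁻¹} from
          H.bad (abs_lt.2 ⟨by linarith [H.Z1], by linarith [H.Z1]⟩))]
        gcongr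
    have a3 : (ψ x - ps v x) * (dv B.g (nf B.g w f) x - κ * m x) * dens B.g x ≤
        (bl M (L + 3)).indicator (fun _ => 2 * K * Λ * δ) x := by
      rcases le_or_gt (L + 9 / 4) ‖px x‖ with k | k
      · rw [φ0 x k, zero_mul, zero_mul]
        exact indicator_nonneg (fun _ _ => by positivity) x
      rw [indicator_of_mem (show x ∈ bl M (L + 3) from lt_trans k (by linarith)),
        H.cq.eqn x (by linarith)]
      obtain ⟨p0, p1⟩ := hψ.mem x
      obtain ⟨q0, q1⟩ := ps_mem v x
      have b1 : (ψ x - ps v x) * p x = 0 := by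
        rcases le_total (B.F x) (B.s / 4) with k' | k'
        · rw [hψ.zero x k', ps_zero (H.col x k'), sub_self, zero_mul]
        · rw [hP.p0 x (by linarith [hB.s0]), mul_zero]
      have b2 : 0 ≤ (ψ x - ps v x) * q x := by
        rcases le_total ‖px x‖ (L + 1) with k' | k'
        · rw [hP.q0 x k', mul_zero]
        · rw [hψ.one x (by linarith)]
          exact mul_nonneg (by linarith) (hP.q04 x).1
      have b3 : (ψ x - ps v x) * v x ≤ 1 := by
        rcases le_total (v x) 0 with k' | k'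
        · rw [ps_zero k']; nlinarith
        rcases le_total 1 (v x) with k'' | k''
        · rw [ps_one k'']; nlinarith
        · nlinarith
      have b4 : (ψ x - ps v x) * (τ * t) ≤ δ := by
        obtain ⟨c1, c2⟩ := abs_le.1 H.τt
        nlinarith
      have b5 : (ψ x - ps v x) * (τ * f x) ≤ 2 * δ := by
        have := mul_le_mul_of_nonneg_left b3 H.τ0.le
        rw [H.eq x k.le] at this
        linarith [H.τ1]
      have b6 : (ψ x - ps v x) * (τ * U x ^ (2 * gam n) * f x + κ * m x + T * (p x - q x) -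
          κ * m x) ≤ K * (2 * δ) := by
        have c1 := mul_le_mul_of_nonneg_left b5 w0.le
        have c2 := mul_le_mul_of_nonneg_right w1 (by positivity : 0 ≤ 2 * δ)
        have c3 := mul_nonneg H.T0 b2
        have c4 : T * ((ψ x - ps v x) * p x) = 0 := by rw [b1, mul_zero]
        simp only [hw] at c1 c2
        linarith
      calc _ ≤ K * (2 * δ) * dens B.g x := mul_le_mul_of_nonneg_right b6 d0
        _ ≤ K * (2 * δ) * Λ := by gcongr
        _ = _ := by ring
    have a4 := mul_le_mul_of_nonneg_right a1 d0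
    linarith
  have k := integral_mono_ae ((i1.add i3).add (i5.add i6)) ((i2.add i4).add (i7.add i8)) key
  rw [integral_add' (i1.add i3) (i5.add i6), integral_add' i1 i3, integral_add' i5 i6,
    integral_add' (i2.add i4) (i7.add i8), integral_add' i2 i4, integral_add' i7 i8, ib,
    integral_const_mul, integral_const_mul, integral_indicator_const _ H.meas,
    integral_indicator_const _ (meas_bl _), smul_eq_mul, smul_eq_mul] at k
  have k2 : volume.real {x | ‖px x‖ < L + 3 ∧ |f x - t| ≤ δ⁻¹} ≤ δ :=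
    ENNReal.toReal_le_of_le_ofReal δ0.le H.vol
  have k3 := mul_le_mul_of_nonneg_right k2 (by positivity : 0 ≤ K * D * Λ)
  unfold pp per
  linarith

end Vale.Agent.P366M.G
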