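import Vale.Agent.P366Q.O.Defs
import Vale.Agent.P366M.End4
import Vale.Agent.P366M.Calc2
import Vale.Agent.P366Y.J.Touch

/-!
# P366Q, block O: touching graphs, the logarithmic barrier
-/

open MeasureTheory Metric Filter Topology Set
open scoped ContDiff ENNReal
open Vale.Agent.P366 Vale.Agent.P366.Stmt Vale.Agent.P366Z

noncomputable section

namespace Vale.Agent.P366M.G

section A

variable {n : ℕ} {M : Type} [Mf0 n M] {g : Fld n M} {w σ Θ f v : M → ℝ} {x : M}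

theorem dv_q (hg : Met g) (hw : DAt w x) (hσ : CAt 2 σ x) (hΘ : DAt Θ x) (h0 : 0 < Θ x) :
    dv g (fun i y => w y * gr g σ i y / √(Θ y)) x =
      (w x * lap g σ x + ip g w σ x) / √(Θ x) - w x * ip g Θ σ x / (2 * √(Θ x) ^ 3) := by
  have s0 : 0 < √(Θ x) := Real.sqrt_pos.2 h0
  have d1 : DAt (fun y => √(Θ y)) x := hΘ.sqrt h0.ne'
  have e : (fun i y => w y * gr g σ i y / √(Θ y)) = fun i y => w y / √(Θ y) * gr g σ i y := by
    funext i y; ring
  have e2 : ∀ i, pd i (fun y => w y / √(Θ y)) x =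
      1 / √(Θ x) * pd i w x + -(w x / (2 * √(Θ x) ^ 3)) * pd i Θ x := fun i => by
    rw [pd_div hw d1 s0.ne', pd_comp (Real.hasDerivAt_sqrt h0.ne') hΘ]
    field_simp
    ring
  rw [e, hg.dv_smul (hw.div d1 s0.ne') (hg.diff_gr hσ), ← lap_eq_dv g hσ, ← ip_eq_gr,
    ip_of_pd_add e2]
  ring

theorem one_ip (hg : Met g) (f : M → ℝ) (x : M) : 0 < 1 + ip g f f x := by
  linarith [hg.ip_nonneg f x]

theorem cv_nf (hg : Met g) (hw : Smooth w) (hf : Smooth f) : CV ∞ (nf g w f) :=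
  CV.div (CV.smul hw (hg.sm_gr hf)) (CD.sqrt (cd_const.add (hg.sm_ip hf hf))
    fun x => (one_ip hg f x).ne') fun x => (Real.sqrt_pos.2 (one_ip hg f x)).ne'

theorem dv_nf (hg : Met g) (hw : DAt w x) (hf : CAt 2 f x) : dv g (nf g w f) x =
    w x / √(1 + ip g f f x) * (∑ i, ∑ j, (up g i j x - gr g f i x * gr g f j x /
      (1 + ip g f f x)) * hess g f x i j) + ip g w f x / √(1 + ip g f f x) := by
  have h0 := one_ip hg f x
  have s0 : 0 < √(1 + ip g f f x) := Real.sqrt_pos.2 h0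
  have e := dv_q hg hw hf ((hg.diff_ip hf hf).const_add 1) h0
  have e1 : ip g (fun y => 1 + ip g f f y) f x =
      2 * ∑ i, ∑ j, gr g f i x * gr g f j x * hess g f x i j := by
    rw [ip_eq_gr, Finset.mul_sum]
    refine Finset.sum_congr rfl fun i _ => ?_
    rw [pd_const_add, hg.pd_ip hf hf, ← two_mul, mul_assoc, Finset.sum_mul]
    congr 1
    exact Finset.sum_congr rfl fun j _ => by ring
  have e2 : ∑ i, ∑ j, (up g i j x - gr g f i x * gr g f j x / (1 + ip g f f x)) * hess g f x i j =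
      lap g f x - (∑ i, ∑ j, gr g f i x * gr g f j x * hess g f x i j) / (1 + ip g f f x) := by
    rw [hg.lap_eq_tr hf, tr, Finset.sum_div, ← Finset.sum_sub_distrib]
    refine Finset.sum_congr rfl fun i _ => ?_
    rw [Finset.sum_div, ← Finset.sum_sub_distrib]
    exact Finset.sum_congr rfl fun j _ => by ring
  have e3 : √(1 + ip g f f x) ^ 3 = √(1 + ip g f f x) * (1 + ip g f f x) := by
    rw [pow_succ', Real.sq_sqrt h0.le]
  refine Eq.trans e ?_
  rw [e1, e2, e3]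
  field_simp
  ring

/-- at a local minimum of `f - v` -/
theorem touch_nf (hg : Met g) (hw : DAt w x) (w0 : 0 ≤ w x) (hf : CAt 2 f x) (hv : CAt 2 v x)
    (hm : IsLocalMin (fun y => f y - v y) x) : dv g (nf g w v) x ≤ dv g (nf g w f) x := by
  have h0 := one_ip hg f x
  have ps : P366Y.J.Psd fun i j => up g i j x - gr g f i x * gr g f j x / (1 + ip g f f x) := by
    refine ⟨fun i j => by simp only [hg.up_sy i j, mul_comm], fun ξ => ?_⟩
    have c := hg.up_cs x ξ fun i => pd i f x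
    have e1 : ∑ i, ∑ j, up g i j x * ξ i * pd j f x = ∑ i, gr g f i x * ξ i :=
      Finset.sum_congr rfl fun i _ => by
        rw [gr, Finset.sum_mul]; exact Finset.sum_congr rfl fun j _ => by ring
    have e2 : ∑ i, ∑ j, (up g i j x - gr g f i x * gr g f j x / (1 + ip g f f x)) * ξ i * ξ j =
        ∑ i, ∑ j, up g i j x * ξ i * ξ j - (∑ i, gr g f i x * ξ i) ^ 2 / (1 + ip g f f x) := by
      rw [sq, Finset.sum_mul_sum, Finset.sum_div, ← Finset.sum_sub_distrib]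
      refine Finset.sum_congr rfl fun i _ => ?_
      rw [Finset.sum_div, ← Finset.sum_sub_distrib]
      exact Finset.sum_congr rfl fun j _ => by ring
    rw [e2, sub_nonneg, div_le_iff₀ h0, ← e1]
    have := hg.up_nonneg x ξ
    change _ ≤ _ * ip g f f x at c
    nlinarith
  obtain ⟨h1, h2⟩ := P366Y.J.touch n (loc (ch x) f) (loc (ch x) v) (pt x) _ hf hv
    (isLocalMin_loc hm) ps
  have e : ∀ k, pd k v x = pd k f x := fun k => (congrFun h1 k).symm
  have g1 : ∀ k, gr g v k x = gr g f k x := fun k => by simp only [gr, e]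
  have g2 : ∀ u, ip g u v x = ip g u f x := fun u => by simp only [ip, e]
  have g3 : ip g v f x = ip g f f x := by simp only [ip, e]
  rw [dv_nf hg hw hf, dv_nf hg hw hv]
  simp only [g1, g2, g3]
  refine add_le_add_left (mul_le_mul_of_nonneg_left ?_ (by positivity)) _
  simp only [hess, mul_sub, Finset.sum_sub_distrib, e]
  exact sub_le_sub_right h2 _

theorem nf_neg (g : Fld n M) (w f : M → ℝ) : nf g w (fun y => -f y) = fun i y => -nf g w f i y := by
  funext i y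
  simp only [nf, gr, ip, pd_neg, mul_neg, neg_mul, neg_neg, Finset.sum_neg_distrib, neg_div]

/-- the divergence of the normal of the graph of `ε⁻¹ log σ` -/
def gq (g : Fld n M) (w σ : M → ℝ) (ε : ℝ) (x : M) : ℝ :=
  (w x * lap g σ x + ip g w σ x) / √(ε ^ 2 * σ x ^ 2 + ip g σ σ x) -
    w x * (ε ^ 2 * ip g (fun y => σ y ^ 2) σ x + ip g (ip g σ σ) σ x) /
      (2 * √(ε ^ 2 * σ x ^ 2 + ip g σ σ x) ^ 3)

theorem dv_gq (hg : Met g) (hw : DAt w x) (hσ : Smooth σ) {ε : ℝ}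
    (h0 : 0 < ε ^ 2 * σ x ^ 2 + ip g σ σ x) :
    dv g (fun i y => w y * gr g σ i y / √(ε ^ 2 * σ y ^ 2 + ip g σ σ y)) x = gq g w σ ε x := by
  have d1 := (hσ.diff x).pow 2
  have d2 := (hg.sm_ip hσ hσ).diff x
  rw [dv_q hg hw (hσ.c2 x) ((d1.const_mul _).add d2) h0, gq,
    ip_of_pd_add (u := fun y => ε ^ 2 * σ y ^ 2 + ip g σ σ y) (s := ε ^ 2) (t := 1)
      (u₁ := fun y => σ y ^ 2) (u₂ := ip g σ σ) fun i => by
      rw [pd_add (d1.const_mul _) d2, pd_const_mul, one_mul], one_mul]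

theorem cont_gq (hg : Met g) (hw : Smooth w) (hσ : Smooth σ) {ε : ℝ}
    (h0 : 0 < ε ^ 2 * σ x ^ 2 + ip g σ σ x) :
    ContinuousAt (fun z : ℝ × M => gq g w σ z.1 z.2) (ε, x) := by
  have c1 := hw.cont
  have c2 := hσ.cont
  have c3 := (hg.sm_lap hσ).cont
  have c4 := (hg.sm_ip hw hσ).cont
  have c5 := (hg.sm_ip hσ hσ).cont
  have c6 := (hg.sm_ip (CD.pow hσ 2) hσ).cont
  have c7 := (hg.sm_ip (hg.sm_ip hσ hσ) hσ).cont
  have s0 := Real.sqrt_pos.2 h0
  unfold gq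
  refine ContinuousAt.sub (ContinuousAt.div (by fun_prop) (by fun_prop) s0.ne')
    (ContinuousAt.div (by fun_prop) (by fun_prop) (by positivity))

theorem gq_congr {w' : M → ℝ} (e : w =ᶠ[𝓝 x] w') (ε : ℝ) : gq g w σ ε x = gq g w' σ ε x := by
  rw [gq, gq, ip_congr e (EventuallyEq.refl _ σ), e.eq_of_nhds]

theorem nf_log (hσ : Smooth σ) {ε : ℝ} (hε : 0 < ε) (h0 : 0 < σ x) (i : Fin n) :
    nf g w (fun y => ε⁻¹ * Real.log (σ y)) i x =
      w x * gr g σ i x / √(ε ^ 2 * σ x ^ 2 + ip g σ σ x) := by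
  have e : ∀ i, pd i (fun y => ε⁻¹ * Real.log (σ y)) x = (ε * σ x)⁻¹ * pd i σ x := fun i => by
    rw [pd_const_mul, pd_log (hσ.diff x) h0.ne']; field_simp
  have k : 0 < ε * σ x := by positivity
  have e1 : gr g (fun y => ε⁻¹ * Real.log (σ y)) i x = (ε * σ x)⁻¹ * gr g σ i x := by
    simp only [gr, e, Finset.mul_sum]; exact Finset.sum_congr rfl fun j _ => by ring
  have e2 : ε ^ 2 * σ x ^ 2 + ip g σ σ x =
      (ε * σ x) ^ 2 * (1 + (ε * σ x)⁻¹ * (ε * σ x)⁻¹ * ip g σ σ x) := by field_simp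
  rw [nf, ip_of_pd e e, e1, e2, Real.sqrt_mul (by positivity), Real.sqrt_sq k.le]
  field_simp

end A

variable {n : ℕ} {M : Type} [Mfs n M] {g : Fld n M} {w σ f : M → ℝ}

/-- **the barrier** `ε⁻¹ log σ` -/
theorem bar (hg : Met g) (hw : Smooth w) (w0 : ∀ x, 0 ≤ w x) (hf : Smooth f) (hσ : Smooth σ)
    {ε R : ℝ} (hε : 0 < ε) (hR : ∀ x, 0 < σ x → ‖px x‖ ≤ R) {x₀ : M} (h0 : 0 < σ x₀) :
    ∃ x₁, 0 < σ x₁ ∧ f x₁ - ε⁻¹ * Real.log (σ x₁) ≤ f x₀ - ε⁻¹ * Real.log (σ x₀) ∧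
      gq g w σ ε x₁ ≤ dv g (nf g w f) x₁ := by
  have c : Continuous fun x => σ x * Real.exp (-(ε * f x)) := by
    have := hσ.cont; have := hf.cont; fun_prop
  obtain ⟨x₁, -, h1⟩ := (isCompact_px M R).exists_isMaxOn ⟨x₀, hR x₀ h0⟩ c.continuousOn
  have p1 : 0 < σ x₁ :=
    pos_of_mul_pos_left ((by positivity : 0 < σ x₀ * Real.exp (-(ε * f x₀))).trans_le
      (h1 (hR x₀ h0))) (Real.exp_pos _).le
  have key : ∀ x, 0 < σ x → f x₁ - ε⁻¹ * Real.log (σ x₁) ≤ f x - ε⁻¹ * Real.log (σ x) := by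
    intro x hx
    have k := Real.log_le_log (by positivity) (h1 (hR x hx))
    simp only at k
    rw [Real.log_mul hx.ne' (Real.exp_pos _).ne', Real.log_mul p1.ne' (Real.exp_pos _).ne',
      Real.log_exp, Real.log_exp] at k
    have k2 := mul_le_mul_of_nonneg_left k (inv_pos.2 hε).le
    have e : ∀ a b : ℝ, ε⁻¹ * (a + -(ε * b)) = ε⁻¹ * a - b := fun a b => by field_simp; ring
    rw [e, e] at k2
    linarith
  have ev : ∀ᶠ y in 𝓝 x₁, 0 < σ y := hσ.cont.continuousAt.eventually (lt_mem_nhds p1)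
  refine ⟨x₁, p1, key x₀ h0, ?_⟩
  rw [← dv_gq hg (hw.diff x₁) hσ (by have := hg.ip_nonneg σ x₁; positivity),
    ← dv_congr (X := nf g w fun y => ε⁻¹ * Real.log (σ y))
      fun i => ev.mono fun y hy => nf_log hσ hε hy i]
  exact touch_nf hg (hw.diff x₁) (w0 x₁) (hf.c2 x₁)
    (cAt_const.mul ((hσ.c2 x₁).log p1.ne')) (ev.mono key)

/-- a lower bound of the barrier on a compact set -/
theorem gq_low (hg : Met g) (hw : Smooth w) (hσ : Smooth σ) {ε : ℝ} {K : Set M} (hK : IsCompact K)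
    (h : ∀ x ∈ K, 0 < ε ^ 2 * σ x ^ 2 + ip g σ σ x) : ∃ C, ∀ x ∈ K, -C ≤ gq g w σ ε x := by
  obtain ⟨C, hC⟩ := hK.exists_bound_of_continuousOn (f := gq g w σ ε) fun x hx =>
    ((cont_gq hg hw hσ (h x hx)).comp_of_eq (f := fun y => (ε, y)) (by fun_prop)
      rfl).continuousWithinAt
  exact ⟨C, fun x hx => (abs_le.1 (hC x hx)).1⟩

end Vale.Agent.P366M.G
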