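import Vale.Agent.P366Q.O.Mb0
import Vale.Agent.P366M.Max
import Vale.Agent.P366M.Apx
import Vale.Agent.P366M.Calc2

/-!
# P366Q, block O: touching of capillary graphs, the mean curvature of the limit
-/

open MeasureTheory Metric Filter Topology Set
open scoped ContDiff ENNReal
open Vale.Agent.P366 hiding E omega
open Vale.Agent.P366.Stmt Vale.Agent.P366Z
open Vale.Agent.P366M.Y.C Vale.Agent.P366M.Y.C.GbH

noncomputable section

namespace Vale.Agent.P366M.G

theorem Sp.opn {X : Type} [TopologicalSpace X] (l : Filter ℕ) (u : ℕ → X → ℝ) :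
    IsOpen (Sp l u) := isOpen_iff_mem_nhds.2 fun x hx => by
  obtain ⟨a, ha, b, hb, h⟩ := eventually_prod_iff.1 hx
  filter_upwards [hb.eventually_nhds] with y hy using eventually_prod_iff.2 ⟨a, ha, b, hy, h⟩

theorem Sp.cpt {X : Type} [TopologicalSpace X] {l : Filter ℕ} {u : ℕ → X → ℝ} {K : Set X}
    (hK : IsCompact K) (h : K ⊆ Sp l u) : ∀ᶠ i in l, ∀ y ∈ K, 1 < u i y := by
  obtain ⟨a, ha, b, hb, h⟩ := eventually_prod_iff.1 (hK.mem_prod_nhdsSet_of_forall h)
  exact ha.mono fun i hi y hy => h hi (subset_of_mem_nhdsSet hb hy)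

theorem Sp.at {X : Type} [TopologicalSpace X] {l : Filter ℕ} {u : ℕ → X → ℝ} {x : X}
    (h : x ∈ Sp l u) : ∀ᶠ i in l, 1 < u i x :=
  (Sp.cpt isCompact_singleton (singleton_subset_iff.2 h)).mono fun _ k => k x rfl

theorem Sp.dj {X : Type} [TopologicalSpace X] {l : Filter ℕ} [l.NeBot] {u : ℕ → X → ℝ} {x : X}
    (h : x ∈ Sp l u) : x ∉ Sp l fun i y => -u i y := fun k => by
  obtain ⟨i, h1, h2⟩ := ((Sp.at h).and (Sp.at k)).exists
  linarith

namespace Vs

variable {n : ℕ} {M : Type} [Mf0 n M] {g : Fld n M} {ρ u v w c ψ H : M → ℝ} {x : M}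

/-- the divergence of the normalised gradient -/
theorem dv_nrm (hg : Met g) (hρ : DAt ρ x) (hc : DAt c x) (hv : CAt 2 v x)
    (h0 : 0 < c x + ip g v v x) :
    dv g (fun i y => ρ y * gr g v i y / √(c y + ip g v v y)) x =
      (ρ x * (lap g v x - (ip g c v x + ip g (ip g v v) v x) / (2 * (c x + ip g v v x))) +
        ip g ρ v x) / √(c x + ip g v v x) := by
  have d1 := hc.add (hg.diff_ip hv hv)
  have s0 := Real.sqrt_pos.2 h0
  have d2 := d1.sqrt h0.ne'
  have e : (fun i y => ρ y * gr g v i y / √(c y + ip g v v y)) =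
      fun i y => (ρ y / √(c y + ip g v v y)) * gr g v i y := by
    funext i y; ring
  have p : ∀ i, pd i (fun y => ρ y / √(c y + ip g v v y)) x = (√(c x + ip g v v x))⁻¹ * pd i ρ x +
      -(ρ x / (2 * (c x + ip g v v x)) / √(c x + ip g v v x)) *
        pd i (fun y => c y + ip g v v y) x := fun i => by
    rw [pd_div hρ d2 s0.ne', pd_comp (f := fun y => c y + ip g v v y) (Real.hasDerivAt_sqrt h0.ne') d1,
      Real.sq_sqrt h0.le]
    have := Real.mul_self_sqrt h0.le
    field_simp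
    linear_combination (2 * pd i ρ x) * this
  rw [e, hg.dv_smul (hρ.div d2 s0.ne') (hg.diff_gr hv), ← lap_eq_dv g hv, ← ip_eq_gr,
    ip_of_pd_add p, ip_add_left hc (hg.diff_ip hv hv)]
  field_simp
  ring

theorem ip_ip (hg : Met g) (hv : CAt 2 v x) :
    ip g (ip g v v) v x = 2 * ∑ i, ∑ j, gr g v i x * gr g v j x * hess g v x i j := by
  rw [ip_eq_gr, Finset.mul_sum]
  refine Finset.sum_congr rfl fun i _ => ?_
  rw [hg.pd_ip hv hv, ← two_mul, mul_assoc, Finset.sum_mul]
  exact congrArg _ (Finset.sum_congr rfl fun j _ => by ring)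

theorem nf_eq (hg : Met g) (hρ : DAt ρ x) (hv : CAt 2 v x) : dv g (nf g ρ v) x =
    (ρ x * ∑ i, ∑ j, (up g i j x - gr g v i x * gr g v j x / (1 + ip g v v x)) * hess g v x i j +
      ip g ρ v x) / √(1 + ip g v v x) := by
  have h0 : 0 < 1 + ip g v v x := by linarith [hg.ip_nonneg v x]
  have := dv_nrm hg hρ (dAt_const 1) hv h0
  rw [ip_const_left, ip_ip hg hv, hg.lap_eq_tr hv, tr] at this
  refine this.trans ?_
  simp only [sub_mul, Finset.sum_sub_distrib, div_mul_eq_mul_div, ← Finset.sum_div]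
  field_simp
  ring

theorem pd_min (hu : DAt u x) (h : IsLocalMin u x) (i : Fin n) : pd i u x = 0 := by
  rw [pd_eq hu, fd, (isLocalMin_loc h).fderiv_eq_zero]
  rfl

/-- touching from below -/
theorem touch (hg : Met g) (hρ : DAt ρ x) (h0 : 0 ≤ ρ x) (hu : Smooth u) (hψ : CAt 2 ψ x)
    (hm : IsLocalMin (fun y => u y - ψ y) x) : dv g (nf g ρ ψ) x ≤ dv g (nf g ρ u) x := by
  have c := (hu.c2 x).sub hψ
  have p0 := pd_min (diff2 c) hm
  have p : ∀ i, pd i ψ x = 1 * pd i u x := fun i => by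
    have := p0 i
    rw [pd_sub (hu.diff x) (diff2 hψ)] at this
    linarith
  have q : ∀ i, gr g ψ i x = gr g u i x := fun i => by simp only [gr, p, one_mul]
  have hG := Gr.met_g hg hu
  have h := hG.lap_nonneg c hm
  rw [hG.lap_eq_tr c, tr] at h
  have e : ∀ i j, hess (gb g 1 u) (fun y => u y - ψ y) x i j = hess g u x i j - hess g ψ x i j :=
    fun i j => by
      rw [← hess_sub (hu.c2 x) hψ]
      simp only [hess, p0, mul_zero, Finset.sum_const_zero]
  simp only [e, up_gb hg, Gr.w_sq hg, Pi.one_apply, one_pow, one_mul, mul_sub,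
    Finset.sum_sub_distrib] at h
  rw [nf_eq hg hρ hψ, nf_eq hg hρ (hu.c2 x), ip_of_pd p p,
    ip_of_pd (u := ρ) (s := 1) (fun i => (one_mul _).symm) p]
  simp only [q, one_mul]
  exact div_le_div_of_nonneg_right (add_le_add_left (mul_le_mul_of_nonneg_left (sub_nonneg.1 h)
    h0) _) (Real.sqrt_nonneg _)

/-- the mean curvature of the graph of `log (v + θ)` at a point where `v + θ = t` -/
def xi (g : Fld n M) (ρ v : M → ℝ) (t : ℝ) (y : M) : ℝ :=
  (ρ y * (lap g v y - (2 * t * ip g v v y + ip g (ip g v v) v y) / (2 * (t ^ 2 + ip g v v y))) +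
    ip g ρ v y) / √(t ^ 2 + ip g v v y)

theorem xi_zero (hg : Met g) (hρ : DAt ρ x) (hv : CAt 2 v x) (h0 : 0 < ip g v v x) :
    dv g (fun i y => ρ y * gr g v i y / gn g v y) x = xi g ρ v 0 x := by
  have := dv_nrm hg hρ (dAt_const 0) hv (by rwa [zero_add])
  simp only [ip_const_left, zero_add] at this
  simpa [xi, gn] using this

theorem xi_log (hg : Met g) (hρ : DAt ρ x) (hv : Smooth v) {θ : ℝ} (h0 : 0 < v x + θ) :
    dv g (nf g ρ fun y => Real.log (v y + θ)) x = xi g ρ v (v x + θ) x := by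
  have d := fun y => (hv.diff y).add_const θ
  have := dv_nrm hg hρ ((d x).pow 2) (hv.c2 x) (by nlinarith [hg.ip_nonneg v x])
  rw [ip_of_pd (u' := v) (v' := v) (s := 2 * (v x + θ)) (t := 1)
    (fun i => by rw [pd_pow (d x), pd_add_const]; norm_num) (fun i => (one_mul _).symm),
    mul_one] at this
  refine Eq.trans (dv_congr fun i => ?_) this
  filter_upwards [(d x).continuousAt.eventually (lt_mem_nhds h0)] with y hy
  have p : ∀ j, pd j (fun y => Real.log (v y + θ)) y = (v y + θ)⁻¹ * pd j v y := fun j => by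
    rw [pd_log (d y) hy.ne', pd_add_const]; ring
  have q : gr g (fun y => Real.log (v y + θ)) i y = (v y + θ)⁻¹ * gr g v i y := by
    simp only [gr, p, Finset.mul_sum, mul_left_comm]
  have r : (v y + θ) ^ 2 + ip g v v y =
      (v y + θ) ^ 2 * (1 + (v y + θ)⁻¹ * (v y + θ)⁻¹ * ip g v v y) := by field_simp
  rw [nf, q, ip_of_pd p p, r, Real.sqrt_mul (sq_nonneg _), Real.sqrt_sq hy.le]
  field_simp

theorem xi_cont (hg : Met g) (hρ : Smooth ρ) (hv : Smooth v) (h0 : 0 < ip g v v x) :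
    ContinuousAt (fun p : ℝ × M => xi g ρ v p.1 p.2) (0, x) := by
  have c1 := (hg.sm_ip hv hv).cont
  have c2 := (hg.sm_ip (hg.sm_ip hv hv) hv).cont
  have c3 := (hg.sm_ip hρ hv).cont
  have c4 := (hg.sm_lap hv).cont
  have c5 := hρ.cont
  unfold xi
  fun_prop (disch := positivity)

/-- the comparison with a function which touches strictly -/
theorem core {l : Filter ℕ} [l.NeBot] {u : ℕ → M → ℝ} {e : ℕ → ℝ} (hg : Met g) (hρ : Smooth ρ)
    (ρ0 : ∀ y, 0 < ρ y) (hH : ContinuousAt H x) (hw : Continuous w) (hz : ∃ᶠ z in 𝓝 x, w z < 0)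
    (hv : Smooth v) (v0 : v x = 0) (v1 : 0 < ip g v v x) (w0 : w x = 0)
    (hs : ∀ᶠ y in 𝓝 x, y ≠ x → v y < w y) (he : Tendsto e l (𝓝 0)) (hu : ∀ i, Smooth (u i))
    (h1 : ∀ᶠ y in 𝓝 x, (0 < w y → y ∈ Sp l u) ∧ (w y < 0 → y ∈ Sp l fun i y => -u i y))
    (h2 : ∀ᶠ p in l ×ˢ 𝓝 x, u p.1 p.2 ≤ 1 → dv g (nf g ρ (u p.1)) p.2 ≤ H p.2 + e p.1) :
    xi g ρ v 0 x ≤ H x := by
  by_contra hc
  obtain ⟨σ, σ1, σ2⟩ := exists_between (sub_pos.2 (not_le.1 hc))
  have a1 := ((xi_cont hg hρ hv v1).sub (hH.comp (f := Prod.snd) (x := ((0 : ℝ), x))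
    continuousAt_snd)).eventually (lt_mem_nhds σ2)
  rw [nhds_prod_eq] at a1
  obtain ⟨pa, a2, pb, a3, a4⟩ := eventually_prod_iff.1 a1
  obtain ⟨I, b1, N, b2, b3⟩ := eventually_prod_iff.1 h2
  obtain ⟨K, k1, k2, k3⟩ := local_compact_nhds ((a3.and b2).and (hs.and h1))
  obtain ⟨θ₀, t0, t1⟩ := Metric.eventually_nhds_iff.1 a2
  have kf : IsCompact (frontier K) := k3.of_isClosed_subset isClosed_frontier
    k3.isClosed.frontier_subset
  obtain ⟨m, m0, m1⟩ := kf.exists_forall_le' (f := fun y => w y - v y) (a := 0)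
    (hw.sub hv.cont).continuousOn fun y hy => sub_pos.2 ((k2 (k3.isClosed.frontier_subset
      hy)).2.1 fun k => hy.2 (k ▸ mem_interior_iff_mem_nhds.2 k1))
  obtain ⟨θ, θ0, θ1⟩ := exists_between (lt_min m0 (half_pos t0))
  have θ2 := θ1.trans_le (min_le_left _ _)
  have θ3 := θ1.trans_le (min_le_right _ _)
  have vw : ∀ y ∈ K, v y ≤ w y := fun y hy => by
    rcases eq_or_ne y x with rfl | k
    · rw [v0, w0]
    · exact ((k2 hy).2.1 k).le
  obtain ⟨z, z1, z2, z3⟩ := (hz.and_eventually ((show ∀ᶠ y in 𝓝 x, y ∈ K from k1).and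
    (hv.cont.continuousAt.eventually (lt_mem_nhds (show -(θ / 2) < v x by linarith))))).exists
  have cB : IsCompact (K ∩ ({y | -θ ≤ v y} ∩ ({y | v y = θ} ∪ frontier K))) :=
    k3.inter_right ((isClosed_le continuous_const hv.cont).inter
      ((isClosed_eq hv.cont continuous_const).union isClosed_frontier))
  have e1 := Sp.cpt cB (l := l) (u := u) fun y hy => (k2 hy.1).2.2.1 (by
    rcases hy.2.2 with k | k
    · have : v y = θ := k
      linarith [vw y hy.1]
    · have : -θ ≤ v y := hy.2.1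
      linarith [m1 y k])
  obtain ⟨i, i1, i2, i3, i4⟩ := (e1.and ((Sp.at ((k2 z2).2.2.2 z1)).and
    (b1.and (he.eventually (gt_mem_nhds σ1))))).exists
  have cF : Continuous fun y => (v y + θ) * Real.exp (-u i y) :=
    (hv.cont.add continuous_const).mul (hu i).cont.neg.rexp
  obtain ⟨y, y1, y2⟩ := (k3.inter_right (isClosed_le hv.cont continuous_const
    (g := fun _ => θ))).exists_isMaxOn ⟨z, z2, by show v z ≤ θ; linarith [vw z z2]⟩ cF.continuousOn
  have y3 : v y ≤ θ := y1.2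
  have f1 : 2 * θ * Real.exp (-1) < (v y + θ) * Real.exp (-u i y) := by
    have r1 : (v z + θ) * Real.exp (-u i z) ≤ (v y + θ) * Real.exp (-u i y) :=
      y2 ⟨z2, by show v z ≤ θ; linarith [vw z z2]⟩
    have r2 : Real.exp 1 ≤ Real.exp (-u i z) := Real.exp_le_exp.2 i2.le
    have r3 : 2 < Real.exp 1 := by linarith [Real.add_one_lt_exp (one_ne_zero (α := ℝ))]
    have r4 : Real.exp (-1) < 1 / 2 := by
      rw [Real.exp_neg, ← one_div]; exact one_div_lt_one_div_of_lt two_pos r3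
    nlinarith
  have y4 : 0 < v y + θ := (mul_pos_iff_of_pos_right (Real.exp_pos _)).1
    ((mul_pos (mul_pos two_pos θ0) (Real.exp_pos _)).trans f1)
  have y5 : u i y < 1 := by
    by_contra k
    have := Real.exp_le_exp.2 (neg_le_neg (not_lt.1 k))
    nlinarith [Real.exp_pos (-u i y)]
  have y6 : y ∉ {y | v y = θ} ∪ frontier K := fun k => by
    linarith [i1 y ⟨y1.1, show -θ ≤ v y by linarith, k⟩]
  have y7 : K ∈ 𝓝 y := mem_interior_iff_mem_nhds.1 (by
    by_contra k
    exact y6 (Or.inr ⟨subset_closure y1.1, k⟩))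
  have y8 : IsLocalMin (fun y => u i y - Real.log (v y + θ)) y := by
    filter_upwards [y7, hv.cont.continuousAt.eventually (gt_mem_nhds
      (lt_of_le_of_ne y3 fun k => y6 (Or.inl k))), (hv.cont.add continuous_const
        (g := fun _ => θ)).continuousAt.eventually (lt_mem_nhds y4)] with a s1 s2 s3
    replace s3 : 0 < v a + θ := s3
    have r : Real.log ((v a + θ) * Real.exp (-u i a)) ≤ Real.log ((v y + θ) * Real.exp (-u i y)) :=
      Real.log_le_log (mul_pos s3 (Real.exp_pos _)) (y2 ⟨s1, s2.le⟩)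
    rw [Real.log_mul s3.ne' (Real.exp_pos _).ne', Real.log_mul y4.ne' (Real.exp_pos _).ne',
      Real.log_exp, Real.log_exp] at r
    linarith
  have r1 := touch hg (hρ.diff y) (ρ0 y).le (hu i) (((hv.c2 y).add cAt_const).log y4.ne') y8
  rw [xi_log hg (hρ.diff y) hv y4] at r1
  have r2 : dv g (nf g ρ (u i)) y ≤ H y + e i := b3 i3 (k2 y1.1).1.2 y5.le
  have r3 : σ < xi g ρ v (v y + θ) y - H y :=
    a4 (t1 (by rw [Real.dist_eq, sub_zero, abs_of_pos y4]; linarith)) (k2 y1.1).1.1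
  linarith

/-- a smooth function with a strict minimum -/
theorem exists_sq (x : M) : ∃ q : M → ℝ, Smooth q ∧ q x = 0 ∧ ∀ᶠ y in 𝓝 x, y ≠ x → 0 < q y := by
  let b : ContDiffBump (pt x) := ⟨1, 2, one_pos, one_lt_two⟩
  refine ⟨zx (ch x) fun y => b y * ‖y - pt x‖ ^ 2, cd_zx le_rfl (ch_mem x)
    (isCompact_closedBall (pt x) 2) (fun y hy => ?_)
    (b.contDiff.mul ((contDiff_norm_sq ℝ).comp (contDiff_id.sub contDiff_const))), ?_, ?_⟩
  · rw [b.zero_of_le_dist (not_le.1 hy).le, zero_mul]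
  · have := zx_symm (ch_mem x) (fun y => b y * ‖y - pt x‖ ^ 2) (pt x)
    rw [symm_pt] at this
    rw [this]
    simp
  · rw [ev_pt]
    filter_upwards [closedBall_mem_nhds (pt x) one_pos] with y hy k
    rw [zx_symm (ch_mem x), b.one_of_mem_closedBall hy, one_mul]
    exact pow_pos (norm_pos_iff.2 (sub_ne_zero.2 fun l => k (by rw [l, symm_pt]))) 2

end Vs

open Vs in
theorem vis : VIS := by
  intro n M _ g ρ H w l u e x _ hg hρ ρ0 hH hw w1 w0 he hu h1 h2
  have w2 : 0 < ip g w w x := by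
    rw [← hg.gn_sq]; positivity
  have hz : ∃ᶠ z in 𝓝 x, w z < 0 := fun k => w1 (gn_zero (pd_min (hw.diff x)
    (k.mono fun z hz => w0.trans_le (not_lt.1 hz))))
  obtain ⟨q, q1, q2, q3⟩ := exists_sq x
  have q4 := pd_min (q1.diff x) (q3.mono fun y hy => by
    rcases eq_or_ne y x with rfl | k
    exacts [le_rfl, q2.trans_le (hy k).le])
  rw [xi_zero hg (hρ.diff x) (hw.c2 x) w2]
  have key : ∀ μ > (0 : ℝ), xi g ρ w 0 x - μ * (ρ x * (lap g q x -
      (∑ i, ∑ j, gr g w i x * gr g w j x * hess g q x i j) / ip g w w x) / √(ip g w w x)) ≤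
      H x := fun μ μ0 => by
    have sv : Smooth fun y => w y - μ * q y := CD.sub hw (cd_const.mul q1)
    have c2 : CAt 2 (fun y => μ * q y) x := cAt_const.mul (q1.c2 x)
    have p : ∀ i, pd i (fun y => w y - μ * q y) x = 1 * pd i w x := fun i => by
      rw [pd_sub (hw.diff x) (diff2 c2), pd_const_mul, q4]; ring
    have r : ∀ i, gr g (fun y => w y - μ * q y) i x = gr g w i x := fun i => by
      simp only [gr, p, one_mul]
    refine le_of_eq_of_le ?_ (core hg hρ ρ0 hH hw.cont hz sv (by rw [w0, q2]; ring)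
      (by rw [ip_of_pd p p]; linarith) w0 (q3.mono fun y hy k => by
        linarith [mul_pos μ0 (hy k)]) he hu h1 h2)
    simp only [xi, ip_ip hg (hw.c2 x), ip_ip hg (sv.c2 x), ip_of_pd p p, r,
      ip_of_pd (u := ρ) (s := 1) (fun i => (one_mul _).symm) p, hg.lap_sub (hw.c2 x) c2,
      lap_const_mul, hess_sub (hw.c2 x) c2, hess_const_mul, mul_sub, Finset.sum_sub_distrib,
      mul_left_comm _ μ, ← Finset.mul_sum, one_mul, mul_zero, zero_mul, zero_add, ne_eq,
      OfNat.ofNat_ne_zero, not_false_eq_true, zero_pow]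
    field_simp
    ring
  generalize ρ x * (lap g q x - (∑ i, ∑ j, gr g w i x * gr g w j x * hess g q x i j) /
    ip g w w x) / √(ip g w w x) = A at key
  have t : Tendsto (fun μ : ℝ => xi g ρ w 0 x - μ * A) (𝓝[>] 0) (𝓝 (xi g ρ w 0 x - 0 * A)) :=
    (tendsto_const_nhds.sub (tendsto_id.mul_const A)).mono_left nhdsWithin_le_nhds
  rw [zero_mul, sub_zero] at t
  exact le_of_tendsto t (eventually_nhdsWithin_of_forall key)

end Vale.Agent.P366M.G
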